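import Vale.Agent.P338.R3.H313.Words
import Vale.Agent.P338.R3.H50.MicroRun

/-!
P338 power saving, glue (1): the grouped schedule.  In the lists `fw2`, `bk2` the code
`dg (loc J (bA t))` stands for the three steps `dn`, `dg (loc J (bA t))`, `up` on the bits
`J.map (bp t)`, that is for the butterflies on these bits.
-/

namespace Vale.Agent.P338Z.Nm

open Vale.Agent.Lib.PolyTime
open Vale.Agent.P338.R3
open Vale.Agent.P338.R3.H282 (Geo St DC Ly)
open Vale.Agent.P338.R3.H352 (Dc lprog)
open Vale.Agent.P338.R3.H313 (PV GP KP fwP bkP lg lgi lh lb)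
open Vale.Agent.P338.R3.H501.Rad (aR)

/-- Butterflies, grouped. -/
def lg2 (r : ℕ) : List (Ly Dc) :=
  (List.range r).reverse.flatMap fun t => [.dg (.bA t), .dg (.bB t)]

/-- Inverse butterflies, grouped. -/
def lgi2 (r : ℕ) : List (Ly Dc) :=
  (List.range r).flatMap fun t => [.dg (.bC t), .dg (.bA t)]

/-- A half, grouped. -/
def lh2 (a : ℕ) (w sg : Bool) : List (Ly Dc) :=
  lg2 a ++ ([Ly.dg (.mul w sg), (bif w then .dn a else .up a), Ly.dg (.div w sg)] ++ lgi2 a)

/-- A block, grouped. -/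
def lb2 (a : ℕ) (w : Bool) : List (Ly Dc) :=
  [Ly.dg (.pre w)] ++ (lh2 a w false ++ ([Ly.dg (.psi false)] ++ (lh2 a w true ++
    [Ly.dg (.psi true), Ly.dg (.post w)])))

/-- The program of one digit, grouped. -/
def lprog2 (a : ℕ) : List (Ly Dc) := lb2 a false ++ (lb2 a true ++ lb2 a false)

/-- The layers of a grouped layer. -/
def expL : Ly Dc → List (Ly Dc)
  | .dg (.bA t) => [.dn t, .dg (.bA t), .up t]
  | l => [l]

/-- The local bit and the digits of a group of butterflies. -/
def isH : St Dc → Option (ℕ × List ℕ)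
  | .dg (.loc J (.bA t)) => some (t, J)
  | _ => none

/-- The steps of a grouped step. -/
def expS (G : Geo) (st : St Dc) : List (St Dc) :=
  match isH st with
  | some x => [.dn (x.2.map (G.bp x.1)), st, .up (x.2.map (G.bp x.1))]
  | none => [st]

/-- The grouped schedule before the product. -/
def fw2 (p : PV) : List (St Dc) := (GP p).fwd (lprog2 (aR p.d))

/-- The grouped schedule after the product. -/
def bk2 (p : PV) : List (St Dc) := (GP p).bwd (lprog2 (aR p.d))

theorem isH_some {st : St Dc} {t : ℕ} {J : List ℕ} (h : isH st = some (t, J)) :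
    st = .dg (.loc J (.bA t)) := by
  rcases st with _ | _ | c
  · simp [isH] at h
  · simp [isH] at h
  · rcases c with ⟨J', c⟩ | _ | _ | _ | _ | _
    · cases c <;> simp [isH] at h
      obtain ⟨rfl, rfl⟩ := h
      rfl
    all_goals simp [isH] at h

theorem expS_none {G : Geo} {st : St Dc} (h : isH st = none) : expS G st = [st] := by
  simp [expS, h]

theorem expS_H (G : Geo) (t : ℕ) (J : List ℕ) : expS G (.dg (.loc J (.bA t))) =
    [.dn (J.map (G.bp t)), .dg (.loc J (.bA t)), .up (J.map (G.bp t))] := rfl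

theorem exp_lg2 (r : ℕ) : (lg2 r).flatMap expL = lg r := by
  simp only [lg2, lg, List.flatMap_assoc]
  rfl

theorem exp_lgi2 (r : ℕ) : (lgi2 r).flatMap expL = lgi r := by
  simp only [lgi2, lgi, List.flatMap_assoc]
  rfl

theorem exp_lh2 (a : ℕ) (w sg : Bool) : (lh2 a w sg).flatMap expL = lh a w sg := by
  simp only [lh2, lh, List.flatMap_append, exp_lg2, exp_lgi2]
  cases w <;> rfl

theorem exp_lb2 (a : ℕ) (w : Bool) : (lb2 a w).flatMap expL = lb a w := by
  simp only [lb2, lb, List.flatMap_append, exp_lh2]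
  rfl

theorem exp_lprog2 (a : ℕ) : (lprog2 a).flatMap expL = lprog a := by
  simp only [lprog2, H313.lprog_eq, List.flatMap_append, exp_lb2]

theorem expS_lk (G : Geo) (J : List ℕ) (l : Ly Dc) :
    expS G (G.lk J l) = (expL l).map (G.lk J) := by
  rcases l with t | t | c
  · rfl
  · rfl
  · cases c <;> rfl

theorem exp_W (G : Geo) (prog : List (Ly Dc)) (J : List ℕ) :
    (G.W prog J).flatMap (expS G) = G.W (prog.flatMap expL) J := by
  unfold Geo.W
  rw [List.flatMap_map, List.map_flatMap]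
  exact List.flatMap_congr fun l _ => expS_lk G J l

theorem exp_stA (G : Geo) (prog : List (Ly Dc)) (neg : Bool) (q : ℕ) :
    (G.stA prog neg q).flatMap (expS G) = G.stA (prog.flatMap expL) neg q := by
  unfold Geo.stA
  rw [List.flatMap_append, List.flatMap_cons, exp_W]
  rfl

theorem exp_stB (G : Geo) (prog : List (Ly Dc)) (neg : Bool) (q : ℕ) :
    (G.stB prog neg q).flatMap (expS G) = G.stB (prog.flatMap expL) neg q := by
  unfold Geo.stB
  rw [List.flatMap_append, List.flatMap_cons, exp_W]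
  rfl

theorem exp_fwd (G : Geo) (prog : List (Ly Dc)) :
    (G.fwd prog).flatMap (expS G) = G.fwd (prog.flatMap expL) := by
  unfold Geo.fwd
  simp only [List.flatMap_append, List.flatMap_assoc, exp_W, exp_stA, exp_stB]
  rfl

theorem exp_bwd (G : Geo) (prog : List (Ly Dc)) :
    (G.bwd prog).flatMap (expS G) = G.bwd (prog.flatMap expL) := by
  unfold Geo.bwd
  simp only [List.flatMap_cons, List.flatMap_append, List.flatMap_assoc, exp_W, exp_stA, exp_stB]
  rfl

theorem exp_fw2 (p : PV) : (fw2 p).flatMap (expS (GP p)) = fwP p := by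
  rw [fw2, exp_fwd, exp_lprog2]
  rfl

theorem exp_bk2 (p : PV) : (bk2 p).flatMap (expS (GP p)) = bkP p := by
  rw [bk2, exp_bwd, exp_lprog2]
  rfl

theorem mem_expS (G : Geo) (st : St Dc) : st ∈ expS G st := by
  unfold expS
  cases isH st <;> simp

/-- Every grouped step is a step of the schedule. -/
theorem mem_old {p : PV} {st : St Dc} (h : st ∈ fw2 p ++ bk2 p) : st ∈ fwP p ++ bkP p := by
  rw [← exp_fw2, ← exp_bk2, ← List.flatMap_append]
  exact List.mem_flatMap.2 ⟨st, h, mem_expS _ st⟩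

theorem mem_old_of_exp {p : PV} {st st' : St Dc} (h : st ∈ fw2 p ++ bk2 p)
    (h' : st' ∈ expS (GP p) st) : st' ∈ fwP p ++ bkP p := by
  rw [← exp_fw2, ← exp_bk2, ← List.flatMap_append]
  exact List.mem_flatMap.2 ⟨st, h, h'⟩

/-! ### the groups of butterflies -/

theorem bA_lt {a t : ℕ} (h : Ly.dg (Dc.bA t) ∈ lprog2 a) : t < a := by
  have h1 : ∀ w sg, Ly.dg (Dc.bA t) ∈ lh2 a w sg → t < a := by
    intro w sg h
    cases w <;> simpa [lh2, lg2, lgi2] using h
  have h2 : ∀ w, Ly.dg (Dc.bA t) ∈ lb2 a w → t < a := by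
    intro w h
    simp only [lb2, List.mem_append, List.mem_cons, List.not_mem_nil, or_false, Ly.dg.injEq,
      reduceCtorEq, false_or, or_self] at h
    rcases h with h | h
    · exact h1 _ _ h
    · exact h1 _ _ h
  simp only [lprog2, List.mem_append] at h
  rcases h with h | h | h <;> exact h2 _ h

/-- The digit lists of the local diagonals. -/
def LocOk (d : ℕ) : St Dc → Prop
  | .dg (.loc J _) => J.Nodup ∧ ∀ i ∈ J, i < d
  | _ => True

theorem locOk_W (G : Geo) (prog : List (Ly Dc)) {J : List ℕ} (h : J.Nodup ∧ ∀ i ∈ J, i < G.d) :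
    ∀ st ∈ G.W prog J, LocOk G.d st := by
  intro st hst
  obtain ⟨l, _, rfl⟩ := List.mem_map.1 hst
  cases l with
  | dn t => trivial
  | up t => trivial
  | dg c => exact h

theorem locOk_stA (G : Geo) (prog : List (Ly Dc)) (neg : Bool) (q : ℕ) :
    ∀ st ∈ G.stA prog neg q, LocOk G.d st := by
  intro st hst
  simp only [Geo.stA, List.mem_append, List.mem_cons] at hst
  rcases hst with h | rfl | h
  · exact locOk_W G prog (H50.nodup_posJ G q) st h
  · trivial
  · exact locOk_W G prog (H50.nodup_posJ G q) st h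

theorem locOk_stB (G : Geo) (prog : List (Ly Dc)) (neg : Bool) (q : ℕ) :
    ∀ st ∈ G.stB prog neg q, LocOk G.d st := by
  intro st hst
  simp only [Geo.stB, List.mem_append, List.mem_cons] at hst
  rcases hst with h | rfl | h
  · exact locOk_W G prog (H50.nodup_grpJ G q) st h
  · trivial
  · exact locOk_W G prog (H50.nodup_grpJ G q) st h

theorem locOk_sel (G : Geo) (i : ℕ) :
    (∀ st ∈ (G.selF i : List (St Dc)), LocOk G.d st) ∧
      ∀ st ∈ (G.selI i : List (St Dc)), LocOk G.d st := by
  constructor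
  · intro st hst
    simp only [Geo.selF, List.mem_cons, List.not_mem_nil, or_false] at hst
    rcases hst with rfl | rfl | rfl | rfl <;> trivial
  · intro st hst
    simp only [Geo.selI, List.mem_cons, List.not_mem_nil, or_false] at hst
    rcases hst with rfl | rfl | rfl | rfl <;> trivial

theorem locOk_fwd (G : Geo) (prog : List (Ly Dc)) : ∀ st ∈ G.fwd prog, LocOk G.d st := by
  intro st hst
  simp only [Geo.fwd, List.mem_append, List.mem_flatMap] at hst
  rcases hst with ⟨i, -, h⟩ | ⟨i, -, h⟩ | ⟨i, -, h⟩ | h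
  · exact (locOk_sel G i).1 st h
  · exact locOk_stA G prog false i st h
  · exact locOk_stB G prog false i st h
  · exact locOk_W G prog ⟨List.nodup_range, fun i hi => List.mem_range.1 hi⟩ st h

theorem locOk_bwd (G : Geo) (prog : List (Ly Dc)) : ∀ st ∈ G.bwd prog, LocOk G.d st := by
  intro st hst
  simp only [Geo.bwd, List.mem_append, List.mem_flatMap, List.mem_cons] at hst
  rcases hst with rfl | h | ⟨i, -, h⟩ | ⟨i, -, h⟩ | ⟨i, -, h⟩
  · trivial
  · exact locOk_W G prog ⟨List.nodup_range, fun i hi => List.mem_range.1 hi⟩ st h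
  · exact locOk_stB G prog true i st h
  · exact locOk_stA G prog true i st h
  · exact (locOk_sel G i).2 st h

/-- **The groups of butterflies of the schedule.** -/
theorem isH_ok {p : PV} {st : St Dc} (h : st ∈ fw2 p ++ bk2 p) {t : ℕ} {J : List ℕ}
    (hH : isH st = some (t, J)) : t < aR p.d ∧ J.Nodup ∧ ∀ i ∈ J, i < p.d := by
  obtain rfl := isH_some hH
  rcases List.mem_append.1 h with h | h
  · exact ⟨bA_lt (H313.inProg_fwd _ _ _ h), locOk_fwd _ _ _ h⟩
  · exact ⟨bA_lt (H313.inProg_bwd _ _ _ h), locOk_bwd _ _ _ h⟩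

theorem length_lprog2 (a : ℕ) : (lprog2 a).length = 24 * a + 30 := by
  have h1 : (lg2 a).length = 2 * a := by simp [lg2, List.length_flatMap, mul_comm]
  have h2 : (lgi2 a).length = 2 * a := by simp [lgi2, List.length_flatMap, mul_comm]
  simp only [lprog2, lb2, lh2, List.length_append, h1, h2, List.length_cons, List.length_nil]
  ring

/-! ### polynomial time -/

section pt

variable {A : Set Word} {α β : Type*} [Enc α] [Enc β]

open H313

theorem pt_lg2 {r : α → ℕ} (hr : PT A r) (hb : PBd r) : PT A (fun x => lg2 (r x)) := by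
  unfold lg2
  have h1 : PT A (fun q : α × ℕ => q.2) := PT.id.snd
  exact PT.flatMap (f := fun _ t => [Ly.dg (Dc.bA t), .dg (Dc.bB t)])
    (PT.reverse (PT.range hr hb)) (PT.cons (pt_lydg (pt_dcbA h1))
      (PT.cons (pt_lydg (pt_dcbB h1)) (PT.const [])))

theorem pt_lgi2 {r : α → ℕ} (hr : PT A r) (hb : PBd r) : PT A (fun x => lgi2 (r x)) := by
  unfold lgi2
  have h1 : PT A (fun q : α × ℕ => q.2) := PT.id.snd
  exact PT.flatMap (f := fun _ t => [Ly.dg (Dc.bC t), .dg (Dc.bA t)])
    (PT.range hr hb) (PT.cons (pt_lydg (pt_dcbC h1))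
      (PT.cons (pt_lydg (pt_dcbA h1)) (PT.const [])))

theorem pt_lh2 {a : α → ℕ} (ha : PT A a) (hb : PBd a) (w sg : Bool) :
    PT A (fun x => lh2 (a x) w sg) := by
  unfold lh2
  have h1 : PT A (fun x => (bif w then Ly.dn (a x) else Ly.up (a x) : Ly Dc)) :=
    PT.cond (PT.const w) (pt_lydn ha) (pt_lyup ha)
  exact PT.append (pt_lg2 ha hb) (PT.append (PT.cons (PT.const (Ly.dg (Dc.mul w sg)))
    (PT.cons h1 (PT.const [Ly.dg (Dc.div w sg)]))) (pt_lgi2 ha hb))

theorem pt_lb2 {a : α → ℕ} (ha : PT A a) (hb : PBd a) (w : Bool) :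
    PT A (fun x => lb2 (a x) w) := by
  unfold lb2
  exact PT.append (PT.const _) (PT.append (pt_lh2 ha hb w false) (PT.append (PT.const _)
    (PT.append (pt_lh2 ha hb w true) (PT.const _))))

theorem pt_lprog2 {a : α → ℕ} (ha : PT A a) (hb : PBd a) : PT A (fun x => lprog2 (a x)) :=
  PT.append (pt_lb2 ha hb false) (PT.append (pt_lb2 ha hb true) (pt_lb2 ha hb false))

theorem pt_fw2 {p : α → PV} (hp : PT A p) : PT A (fun x => fw2 (p x)) :=
  pt_fwd (geoPT_GP hp) (pt_lprog2 (pt_a hp) (pbd_a hp))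

theorem pt_bk2 {p : α → PV} (hp : PT A p) : PT A (fun x => bk2 (p x)) :=
  pt_bwd (geoPT_GP hp) (pt_lprog2 (pt_a hp) (pbd_a hp))

theorem pt_isH {st : α → St Dc} (hs : PT A st) : PT A (fun x => isH (st x)) := by
  have hc : PT A (fun q : α × DC Dc => H501.DCt q.2) := H501.pt_DCt PT.snd'
  have he : PT A (fun q : α × DC Dc => H900.dcT (H501.DCt q.2).2.2.1) :=
    H900.PT.dcT hc.snd.snd.fst
  have h2 := ((PT.eqNat hc.fst (PT.const 0)).and (PT.eqNat he.fst (PT.const 0))).cond
    (PT.some (he.snd.fst.pair hc.snd.fst)) (PT.const none)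
  refine (pt_stcases (f0 := fun _ _ => (none : Option (ℕ × List ℕ))) (f1 := fun _ _ => none)
    (f2 := fun _ c => bif decide ((H501.DCt c).1 = 0) &&
      decide ((H900.dcT (H501.DCt c).2.2.1).1 = 0) then
      some ((H900.dcT (H501.DCt c).2.2.1).2.1, (H501.DCt c).2.1) else none)
    hs (PT.const none) (PT.const none) h2).congr fun x => ?_
  rcases st x with J | J | c
  · rfl
  · rfl
  · rcases c with ⟨J, c⟩ | _ | _ | _ | _ | _
    · cases c <;> simp [isH, H501.DCt, H900.dcT]
    all_goals simp [isH, H501.DCt]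

end pt

end Vale.Agent.P338Z.Nm
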