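import Vale.Agent.P338Z.Nm.Had

/-!
P338 power saving, glue (3): crude bounds for the words of the arrays along the schedule.
-/

namespace Vale.Agent.P338Z.Nm

open Vale.Agent.P338.R3
open Vale.Agent.P338.R3.H282 (Geo St DC Ly dnF upF bfly)
open Vale.Agent.P338.R3.H352 (Dc lprog)
open Vale.Agent.P338.R3.H313 (PV GP KP fwP bkP)
open Vale.Agent.P338.R3.H501.Rad (aR NR)
open Vale.Agent.P338.R3.H968 (CPar Cell sg)
open Vale.Agent.P338.R3.H334 (mzSt cmZ prZ mulWord mulPoly wrap Cq)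
open Vale.Agent.P338.R3.H257 (MArr runS ldArr)
open Vale.Agent.P338.R3.H121 (geo cpar bW sc wW lgK tot)
open Vale.Agent.P338.R3.H900 (lvc)

/-- The words of the array are at most `2 ^ x`. -/
def BdA (n nw x : ℕ) (F : MArr) : Prop := ∀ u < n, ∀ o r, ∀ j < nw, |F u o r j| ≤ 2 ^ x

theorem BdA.mono {n nw x y : ℕ} {F : MArr} (h : BdA n nw x F) (hxy : x ≤ y) : BdA n nw y F :=
  fun u hu o r j hj => (h u hu o r j hj).trans (pow_le_pow_right₀ (by norm_num) hxy)

theorem abs_wrap_le (b : ℕ) (z : ℤ) : |wrap b z| ≤ |z| := by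
  by_cases h : 2 * |z| < 2 ^ b
  · rw [H50.wrap_eq_sg, sg_small h]
  · unfold wrap
    have e : (2 : ℤ) ^ b = ((2 ^ b : ℕ) : ℤ) := by push_cast; rfl
    rw [e] at h
    have h0 : 0 < 2 ^ b := by positivity
    have h1 := Int.le_bmod (x := z) h0
    have h2 := Int.bmod_le (x := z) h0
    generalize 2 ^ b = m at *
    rw [abs_le]
    constructor <;> omega

theorem abs_div_le {a : ℤ} {m s : ℕ} (h : |a| ≤ 2 ^ (m + s)) : |a / 2 ^ s| ≤ 2 ^ m := by
  rw [abs_le, pow_add] at h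
  rw [abs_le]
  have hs : (0 : ℤ) < 2 ^ s := by positivity
  constructor
  · rw [Int.le_ediv_iff_mul_le hs]
    linarith [h.1]
  · exact Int.ediv_le_of_le_mul hs h.2

theorem abs_add_two {a c : ℤ} {x : ℕ} (ha : |a| ≤ 2 ^ x) (hc : |c| ≤ 2 ^ x) :
    |a + c| ≤ 2 ^ (x + 1) ∧ |a - c| ≤ 2 ^ (x + 1) := by
  rw [pow_succ]
  have h1 := abs_add_le a c
  have h2 := abs_sub a c
  constructor <;> linarith

theorem bdA_dn {K nw x : ℕ} {J : List ℕ} (hJ : ∀ b ∈ J, b < K) {F : MArr}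
    (h : BdA (2 ^ K) nw x F) : BdA (2 ^ K) nw (x + J.length) (J.foldr dnF F) := by
  induction J with
  | nil => exact h
  | cons b J ih =>
    have ih' := ih fun c hc => hJ c (List.mem_cons_of_mem _ hc)
    intro u hu o r j hj
    rw [List.foldr_cons, List.length_cons, ← add_assoc]
    unfold dnF
    split_ifs with hb
    · exact ih'.mono (Nat.le_succ _) u hu o r j hj
    · exact (abs_add_two (ih' u hu o r j hj) (ih' _ (H334.add_two_pow_lt hu
        (hJ b List.mem_cons_self) (by simpa using hb)) o r j hj)).1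

theorem bdA_up {n nw x : ℕ} (J : List ℕ) {F : MArr}
    (h : BdA n nw x F) : BdA n nw (x + J.length) (J.foldr upF F) := by
  induction J with
  | nil => exact h
  | cons b J ih =>
    intro u hu o r j hj
    rw [List.foldr_cons, List.length_cons, ← add_assoc]
    unfold upF
    split_ifs with hb
    · exact (abs_add_two (ih u hu o r j hj)
        (ih _ (lt_of_le_of_lt (Nat.sub_le _ _) hu) o r j hj)).1
    · exact ih.mono (Nat.le_succ _) u hu o r j hj

theorem abs_mulWord {b s x l : ℕ} {c z : ℤ} (hc : |wrap b c| ≤ 2 ^ (l + s)) (hz : |z| ≤ 2 ^ x) :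
    |mulWord b s c z| ≤ 2 ^ (x + l) := by
  refine abs_div_le ?_
  rw [abs_mul, add_assoc, pow_add]
  exact mul_le_mul ((abs_wrap_le b z).trans hz) hc (abs_nonneg _) (by positivity)

theorem bdA_cm {n nw b s x l : ℕ} {C : ℕ → ℤ × ℤ}
    (hC : ∀ u < n, |wrap b (C u).1| ≤ 2 ^ (l + s) ∧ |wrap b (C u).2| ≤ 2 ^ (l + s)) {F : MArr}
    (h : BdA n nw x F) : BdA n nw (x + l + 1) fun u => cmZ b s (C u) (F u) := by
  intro u hu o r j hj
  obtain ⟨h1, h2⟩ := hC u hu
  have h3 := h u hu o false j hj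
  have h4 := h u hu o true j hj
  cases r
  · exact (abs_add_two (abs_mulWord h1 h3) (abs_mulWord h2 h4)).2
  · exact (abs_add_two (abs_mulWord h2 h3) (abs_mulWord h1 h4)).1

theorem abs_mulPoly {b s x g m nw : ℕ} (hg : nw ≤ 2 ^ g) (hm : g + 2 * x ≤ m + s) {f h : ℕ → ℤ}
    (hf : ∀ j < nw, |f j| ≤ 2 ^ x) (hh : ∀ j < nw, |h j| ≤ 2 ^ x) {j : ℕ} (hj : j < nw) :
    |mulPoly b s f h j| ≤ 2 ^ m := by
  refine abs_div_le ?_
  have h1 : ∀ i ∈ Finset.range (j + 1), |wrap b (f i) * wrap b (h (j - i))| ≤ 2 ^ (2 * x) := by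
    intro i hi
    rw [Finset.mem_range] at hi
    rw [abs_mul, two_mul, pow_add]
    exact mul_le_mul ((abs_wrap_le b _).trans (hf i (by omega)))
      ((abs_wrap_le b _).trans (hh _ (by omega))) (abs_nonneg _) (by positivity)
  refine (Finset.abs_sum_le_sum_abs _ _).trans ((Finset.sum_le_card_nsmul _ _ _ h1).trans ?_)
  rw [Finset.card_range, nsmul_eq_mul]
  have h2 : ((j + 1 : ℕ) : ℤ) ≤ 2 ^ g := by exact_mod_cast (by omega : j + 1 ≤ 2 ^ g)
  calc ((j + 1 : ℕ) : ℤ) * 2 ^ (2 * x) ≤ 2 ^ g * 2 ^ (2 * x) := by gcongr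
    _ = 2 ^ (g + 2 * x) := (pow_add _ _ _).symm
    _ ≤ 2 ^ (m + s) := pow_le_pow_right₀ (by norm_num) hm

theorem bdA_pr {n nw b s x g m : ℕ} (hg : nw ≤ 2 ^ g) (hm : g + 2 * x ≤ m + s) {F : MArr}
    (h : BdA n nw x F) : BdA n nw (m + 1) fun u => prZ b s (F u) := by
  intro u hu o r j hj
  have k : ∀ r r', |mulPoly b s (F u false r) (F u true r') j| ≤ 2 ^ m := fun r r' =>
    abs_mulPoly hg hm (h u hu false r) (h u hu true r') hj
  cases o
  · cases r
    · exact (abs_add_two (k _ _) (k _ _)).2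
    · exact (abs_add_two (k _ _) (k _ _)).1
  · show |(0 : ℤ)| ≤ _
    rw [abs_zero]
    positivity

theorem bdA_ld (P : CPar) (G : Geo) (m x y n nw : ℕ) :
    BdA n nw (P.w + P.s) (ldArr P G m x y) := by
  intro u _ o r j _
  have h0 : |H898.cZero j| ≤ 2 ^ (P.w + P.s) := by
    show |(0 : ℤ)| ≤ _
    rw [abs_zero]
    positivity
  unfold ldArr
  split_ifs
  · exact h0
  all_goals first
    | exact h0
    | unfold H968.cLoad
      split_ifs
      · rw [abs_of_nonneg (by positivity), pow_add]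
        refine mul_le_mul_of_nonneg_right ?_ (by positivity)
        exact_mod_cast (Nat.mod_lt _ (by positivity)).le
      · rw [abs_zero]
        positivity

variable {cw : PV × DC Dc × ℕ → List Bool × List Bool} {Z : PV × DC Dc × ℕ → ℤ × ℤ}

theorem abs_close {z : ℤ} {s l : ℕ} {r : ℝ} (h : |(z : ℝ) - 2 ^ s * r| ≤ 1) (hr : |r| ≤ 2 ^ l) :
    |z| ≤ 2 ^ (l + 1 + s) := by
  have h1 : |(z : ℝ)| ≤ |(z : ℝ) - 2 ^ s * r| + |2 ^ s * r| := by
    have := abs_add_le ((z : ℝ) - 2 ^ s * r) (2 ^ s * r)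
    simpa using this
  rw [abs_mul, abs_of_pos (by positivity : (0 : ℝ) < 2 ^ s)] at h1
  have h2 : (2 : ℝ) ^ s * |r| ≤ 2 ^ s * 2 ^ l := by gcongr
  have h3 : (1 : ℝ) ≤ 2 ^ s * 2 ^ l := by
    rw [← pow_add]
    exact one_le_pow₀ (by norm_num)
  have h4 : |(z : ℝ)| ≤ 2 ^ (l + 1 + s) := by
    have : (2 : ℝ) ^ (l + 1 + s) = 2 * (2 ^ s * 2 ^ l) := by ring
    linarith
  exact_mod_cast h4

/-- Growth of a step. -/
def gS (G : Geo) (st : St Dc) : ℕ := lgK G st + 2

theorem bdA_semC (h : CwOk cw Z) {p : PV} (hds : p.d ≤ p.s) {st : St Dc}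
    (hst : st ∈ fwP p ++ bkP p) {nw x : ℕ} {F : MArr} (hF : BdA (2 ^ KP p) nw x F) :
    BdA (2 ^ KP p) nw (x + gS (GP p) st) (semC cw p st F) := by
  have hN : H50.StN (KP p) st := by
    rcases List.mem_append.1 hst with h | h
    · exact H50.stN_fwd (GP p) hds _ st h
    · exact H50.stN_bwd (GP p) hds _ st h
  cases st with
  | dn J => exact (bdA_dn hN.2 hF).mono (by simp [gS, lgK])
  | up J => exact (bdA_up J hF).mono (by simp [gS, lgK])
  | dg c =>
    refine bdA_cm (l := lgK (GP p) (.dg c) + 1) (C := C2 cw p c) (fun u _ => ?_) hF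
    obtain ⟨h1, h2⟩ := C2_close h hst u
    have h3 := H328.norm_val_lvc p.d p.s c u
    rw [H50.wrap_eq_sg, H50.wrap_eq_sg]
    exact ⟨abs_close h1 ((Complex.abs_re_le_norm _).trans h3),
      abs_close h2 ((Complex.abs_im_le_norm _).trans h3)⟩

theorem bdA_run (h : CwOk cw Z) {p : PV} (hds : p.d ≤ p.s) {l : List (St Dc)}
    (hl : ∀ st ∈ l, st ∈ fwP p ++ bkP p) {nw x : ℕ} {F : MArr} (hF : BdA (2 ^ KP p) nw x F) :
    BdA (2 ^ KP p) nw (x + tot (gS (GP p)) l) (runS (semC cw p) l F) := by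
  induction l generalizing x F with
  | nil => exact hF
  | cons st l ih =>
    rw [H121.tot_cons, ← add_assoc]
    exact ih (fun st' h' => hl st' (List.mem_cons_of_mem _ h'))
      (bdA_semC h hds (hl st List.mem_cons_self) hF)

/-- Growth of a grouped step. -/
def gS2 (G : Geo) (st : St Dc) : ℕ := tot (gS G) (expS G st)

theorem bdA_sem2 (h : CwOk cw Z) {p : PV} (hds : p.d ≤ p.s) {st : St Dc}
    (hst : st ∈ fw2 p ++ bk2 p) {nw x : ℕ} {F : MArr} (hF : BdA (2 ^ KP p) nw x F) :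
    BdA (2 ^ KP p) nw (x + gS2 (GP p) st) (sem2 cw p st F) :=
  bdA_run h hds (fun _ h' => mem_old_of_exp hst h') hF

theorem tot_gS (G : Geo) (l : List (St Dc)) : tot (gS G) l = tot (lgK G) l + 2 * l.length := by
  induction l with
  | nil => rfl
  | cons st l ih =>
    rw [H121.tot_cons, H121.tot_cons, ih, List.length_cons, gS]
    ring

theorem tot_gS2 (p : PV) : tot (gS2 (GP p)) (fw2 p) ≤ 3 * wW p.d p.s p.y ∧
    tot (gS2 (GP p)) (bk2 p) ≤ 3 * wW p.d p.s p.y := by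
  have e : ∀ l, tot (gS2 (GP p)) l = tot (gS (GP p)) (l.flatMap (expS (GP p))) := fun l =>
    (H121.tot_flatMap _ _ _).symm
  obtain ⟨h1, h2⟩ := H121.lam_le (lprog (aR p.d)) (d := p.d) (s := p.s) p.y
    (H328.length_lprog _).le
  obtain ⟨h3, h4⟩ := H121.length_le (lprog (aR p.d)) (d := p.d) (s := p.s) p.y
    (H328.length_lprog _).le
  rw [e, e, exp_fw2, exp_bk2, tot_gS, tot_gS]
  exact ⟨le_trans (add_le_add h1 (Nat.mul_le_mul_left 2 h3)) (by omega),
    le_trans (add_le_add h2 (Nat.mul_le_mul_left 2 h4)) (by omega)⟩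

end Vale.Agent.P338Z.Nm
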