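import Vale.Agent.P338.R3.H257.Chain

/-!
P338 power saving, glue (4): acts that do not append cells also run with further cells to the right.
-/

namespace Vale.Agent.P338Z.Nm

open Vale.Agent.P338.R3
open Vale.Agent.P338.R3.H968 (CPar Cell DS)
open Vale.Agent.P338.R3.H898 (Act Ex Ex1)
open Vale.Agent.P338.R3.H257 (MArr cells atL)

/-- Further cells at the right end. -/
def addT (T : List Cell) (D : DS) : DS := { D with X := ⟨D.X.l, D.X.r ++ T⟩ }

/-- The array in front of the head, followed by further cells. -/
def atT (D : DS) (n : ℕ) (F : MArr) (T : List Cell) : DS := { D with X := ⟨[], cells n F ++ T⟩ }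

theorem addT_atL (T : List Cell) (D : DS) (n : ℕ) (F : MArr) :
    addT T (atL D n F) = atT D n F T := rfl

theorem atT_nil (D : DS) (n : ℕ) (F : MArr) : atT D n F [] = atL D n F := by
  simp [atT, atL]

theorem atT_congr {n : ℕ} {F G : MArr} (h : ∀ u < n, ∀ o r, F u o r = G u o r) (D : DS)
    (T : List Cell) : atT D n F T = atT D n G T := by
  unfold atT
  rw [H257.cells_congr h]

/-- The act does not append a cell. -/
def NoApp (a : Act) : Prop := a.1 ≠ 11 ∧ a.1 ≠ 12 ∧ a.1 ≠ 13

/-- The number of cells. -/
def lenX (D : DS) : ℕ := D.X.l.length + D.X.r.length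

variable {P : CPar}

theorem ex1_frame {a : Act} {D D' : DS} (h : Ex1 P a D D') (ha : NoApp a) (T : List Cell) :
    Ex1 P a (addT T D) (addT T D') := by
  cases h with
  | mvR _ c l r h => exact .mvR (addT T D) c l (r ++ T) (by simp [addT, h])
  | mvL _ c l r h => exact .mvL (addT T D) c l (r ++ T) (by simp [addT, h])
  | pushR _ c l r h => exact .pushR (addT T D) c l (r ++ T) (by simp [addT, h])
  | pushL _ c l r h => exact .pushL (addT T D) c l (r ++ T) (by simp [addT, h])
  | tr _ c A h => exact .tr (addT T D) c A h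
  | addR _ c y l r B h h' => exact .addR (addT T D) c y l (r ++ T) B (by simp [addT, h]) h'
  | subR _ c y l r B h h' => exact .subR (addT T D) c y l (r ++ T) B (by simp [addT, h]) h'
  | addL _ c y l r B h h' => exact .addL (addT T D) c y l (r ++ T) B (by simp [addT, h]) h'
  | subL _ c y l r B h h' => exact .subL (addT T D) c y l (r ++ T) B (by simp [addT, h]) h'
  | cmul _ u v x y l r h1 h2 h =>
    exact .cmul (addT T D) u v x y l (r ++ T) h1 h2 (by simp [addT, h])
  | prod _ x y x' y' l r h => exact .prod (addT T D) x y x' y' l (r ++ T) (by simp [addT, h])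
  | loadX => exact absurd rfl ha.1
  | loadY => exact absurd rfl ha.2.1
  | zero => exact absurd rfl ha.2.2
  | unl _ c y l r B h h' h'' => exact .unl (addT T D) c y l (r ++ T) B (by simp [addT, h]) h' h''
  | zeroB => exact .zeroB (addT T D)

theorem ex1_len {a : Act} {D D' : DS} (h : Ex1 P a D D') :
    lenX D ≤ lenX D' ∧ (lenX D' ≤ lenX D → NoApp a) := by
  cases h <;> simp_all [lenX, NoApp, Act.c] <;> omega

theorem ex_len {l : List Act} {D D' : DS} (h : Ex P l D D') : lenX D ≤ lenX D' := by
  induction h with
  | nil => exact le_rfl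
  | cons h1 _ ih => exact (ex1_len h1).1.trans ih

theorem ex_noApp {l : List Act} {D D' : DS} (h : Ex P l D D') (hl : lenX D' ≤ lenX D) :
    ∀ a ∈ l, NoApp a := by
  induction h with
  | nil => simp
  | cons h1 h2 ih =>
    intro a ha
    rcases List.mem_cons.1 ha with rfl | ha
    · exact (ex1_len h1).2 ((ex_len h2).trans hl)
    · exact ih (hl.trans (ex1_len h1).1) a ha

/-- **The frame rule.** -/
theorem ex_frame {l : List Act} {D D' : DS} (h : Ex P l D D') (hl : ∀ a ∈ l, NoApp a)
    (T : List Cell) : Ex P l (addT T D) (addT T D') := by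
  induction h with
  | nil => exact .nil _
  | cons h1 _ ih =>
    exact .cons (ex1_frame h1 (hl _ List.mem_cons_self) T)
      (ih fun a ha => hl a (List.mem_cons_of_mem _ ha))

/-- The frame rule for passes on an array. -/
theorem ex_atT {l : List Act} {D : DS} {n : ℕ} {F F' : MArr}
    (h : Ex P l (atL D n F) (atL D n F')) (T : List Cell) :
    Ex P l (atT D n F T) (atT D n F' T) :=
  ex_frame h (ex_noApp h (by simp [lenX, atL, H257.length_cells])) T

end Vale.Agent.P338Z.Nm
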