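import Vale.Agent.P338Z.Nm.Sched
import Vale.Agent.P338.R3.H328.RunGeo

/-!
P338 power saving, glue (2): the three steps `dn`, diagonal `1, -2`, `up` on a list of bits are the
butterflies on these bits; exact constants for these diagonals; the numerical statement.
-/

namespace Vale.Agent.P338Z.Nm

open Vale.Agent.P338.R3
open Vale.Agent.P338.R3.H282 (Geo St DC Ly dnF upF bfly)
open Vale.Agent.P338.R3.H352 (Dc lprog)
open Vale.Agent.P338.R3.H313 (PV GP KP fwP bkP)
open Vale.Agent.P338.R3.H501.Rad (aR NR)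
open Vale.Agent.P338.R3.H968 (CPar Cell sg)
open Vale.Agent.P338.R3.H898 (wv)
open Vale.Agent.P338.R3.H334 (mzSt cmZ prZ mulWord wrap Cq)
open Vale.Agent.P338.R3.H257 (MArr runS Num)
open Vale.Agent.P338.R3.H121 (geo cpar bW sc wW)
open Vale.Agent.P338.R3.H900 (lvc wordZ)

/-! ### bits -/

theorem add_eq_xor {u b : ℕ} (h : u.testBit b = false) : u + 2 ^ b = u ^^^ 2 ^ b := by
  apply Nat.eq_of_testBit_eq
  intro i
  rw [Nat.testBit_xor, Nat.testBit_two_pow, add_comm]
  rcases lt_trichotomy i b with hi | rfl | hi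
  · rw [Nat.testBit_two_pow_add_gt hi]
    simp [hi.ne']
  · rw [Nat.testBit_two_pow_add_eq]
    simp
  · have h1 : u % 2 ^ (b + 1) < 2 ^ b := by
      refine Nat.lt_pow_two_of_testBit _ fun k hk => ?_
      rw [Nat.testBit_mod_two_pow]
      rcases Nat.eq_or_lt_of_le hk with rfl | hk
      · simp [h]
      · simp [show ¬ k < b + 1 by omega]
    obtain ⟨k, rfl⟩ : ∃ k, i = k + (b + 1) := ⟨i - (b + 1), by omega⟩
    rw [← Nat.testBit_div_two_pow, ← Nat.testBit_div_two_pow]
    have h2 : (2 ^ b + u) / 2 ^ (b + 1) = u / 2 ^ (b + 1) := by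
      have h3 := Nat.div_add_mod u (2 ^ (b + 1))
      have h4 : 2 ^ b + u = 2 ^ (b + 1) * (u / 2 ^ (b + 1)) + (2 ^ b + u % 2 ^ (b + 1)) := by omega
      have h5 : 2 ^ b + u % 2 ^ (b + 1) < 2 ^ (b + 1) := by
        have : 2 ^ (b + 1) = 2 ^ b + 2 ^ b := by ring
        omega
      rw [h4, Nat.mul_add_div (by positivity), Nat.div_eq_of_lt h5, add_zero]
    rw [h2]
    simp [show b ≠ k + (b + 1) by omega]

theorem sub_eq_xor {u b : ℕ} (h : u.testBit b = true) : u - 2 ^ b = u ^^^ 2 ^ b := by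
  have h1 : (u ^^^ 2 ^ b).testBit b = false := by simp [Nat.testBit_xor, h]
  have h2 := add_eq_xor h1
  rw [Nat.xor_assoc, Nat.xor_self, Nat.xor_zero] at h2
  omega

theorem testBit_xor_ne {u b c : ℕ} (h : b ≠ c) : (u ^^^ 2 ^ b).testBit c = u.testBit c := by
  simp [Nat.testBit_xor, h]

theorem testBit_xor_self (u b : ℕ) : (u ^^^ 2 ^ b).testBit b = !u.testBit b := by
  simp [Nat.testBit_xor]

section alg

variable {M : Type*} [AddCommGroup M]

theorem dnF_xor (b : ℕ) (f : ℕ → M) (u : ℕ) :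
    dnF b f u = if u.testBit b then f u else f u + f (u ^^^ 2 ^ b) := by
  unfold dnF
  cases h : u.testBit b
  · simp [add_eq_xor h]
  · simp

theorem upF_xor (b : ℕ) (f : ℕ → M) (u : ℕ) :
    upF b f u = if u.testBit b then f u + f (u ^^^ 2 ^ b) else f u := by
  unfold upF
  cases h : u.testBit b
  · simp
  · simp [sub_eq_xor h]

/-- The butterfly with the partner `u ^^^ 2 ^ b`. -/
theorem bfly_xor (b : ℕ) (f : ℕ → M) (u : ℕ) :
    bfly b f u = (if u.testBit b then -f u else f u) + f (u ^^^ 2 ^ b) := by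
  unfold bfly
  cases h : u.testBit b
  · simp [add_eq_xor h]
  · simp only [sub_eq_xor h, if_true]
    abel

/-- The diagonal between `dn` and `up`. -/
def dB (B : List ℕ) (u : ℕ) : ℤ := (B.map fun b => if u.testBit b then (-2 : ℤ) else 1).prod

theorem dB_cons (b : ℕ) (B : List ℕ) (u : ℕ) :
    dB (b :: B) u = (if u.testBit b then (-2 : ℤ) else 1) * dB B u := by simp [dB]

theorem dB_xor {b : ℕ} {B : List ℕ} (h : b ∉ B) (u : ℕ) : dB B (u ^^^ 2 ^ b) = dB B u := by
  unfold dB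
  refine congrArg List.prod (List.map_congr_left fun c hc => ?_)
  have hbc : b ≠ c := fun e => h (e ▸ hc)
  rw [testBit_xor_ne hbc]

/-- `dn` followed by the diagonal of one bit. -/
def tB (b : ℕ) (g : ℕ → M) (u : ℕ) : M :=
  if u.testBit b then (-2 : ℤ) • g u else g u + g (u ^^^ 2 ^ b)

theorem upF_tB (b : ℕ) (g : ℕ → M) : upF b (tB b g) = bfly b g := by
  funext u
  rw [upF_xor, bfly_xor]
  unfold tB
  rw [testBit_xor_self, Nat.xor_assoc, Nat.xor_self, Nat.xor_zero]
  cases u.testBit b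
  · simp
  · simp only [if_true, Bool.not_true, Bool.false_eq_true, if_false]
    module

theorem upF_tB_comm {b c : ℕ} (h : b ≠ c) (g : ℕ → M) : upF c (tB b g) = tB b (upF c g) := by
  funext u
  unfold tB
  simp only [upF_xor]
  rw [testBit_xor_ne h, testBit_xor_ne h.symm, Nat.xor_assoc, Nat.xor_assoc,
    Nat.xor_comm (2 ^ b) (2 ^ c)]
  cases u.testBit b <;> cases u.testBit c <;> simp
  abel

theorem ups_tB {b : ℕ} {B : List ℕ} (h : b ∉ B) (g : ℕ → M) :
    B.foldr upF (tB b g) = tB b (B.foldr upF g) := by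
  induction B with
  | nil => rfl
  | cons c B ih =>
    rw [List.mem_cons, not_or] at h
    rw [List.foldr_cons, List.foldr_cons, ih h.2, upF_tB_comm h.1]

/-- **The three steps are the butterflies.** -/
theorem tri_eq {B : List ℕ} (hB : B.Nodup) (f : ℕ → M) :
    B.foldr upF (fun u => dB B u • B.foldr dnF f u) = B.foldr bfly f := by
  induction B with
  | nil => simp [dB]
  | cons b B ih =>
    rw [List.nodup_cons] at hB
    have e : (fun u => dB (b :: B) u • (b :: B).foldr dnF f u) =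
        tB b fun u => dB B u • B.foldr dnF f u := by
      funext u
      rw [List.foldr_cons, dnF_xor, dB_cons]
      unfold tB
      beta_reduce
      rw [dB_xor hB.1]
      cases u.testBit b
      · simp
      · simp [mul_smul]
    rw [e, List.foldr_cons, List.foldr_cons, ups_tB hB.1, upF_tB, ih hB.2]

end alg

/-! ### exact constants -/

/-- The constants: exact for the groups of butterflies. -/
def C2 (cw : PV × DC Dc × ℕ → List Bool × List Bool) (p : PV) (c : DC Dc) (u : ℕ) : ℤ × ℤ :=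
  match isH (.dg c) with
  | some x => (dB (x.2.map ((GP p).bp x.1)) u * 2 ^ sc p.d p.s p.y, 0)
  | none => H50.Cw cw p c u

/-- The semantics of the steps with these constants. -/
def semC (cw : PV × DC Dc × ℕ → List Bool × List Bool) (p : PV) : St Dc → MArr → MArr :=
  mzSt (bW p.d p.s p.y) (sc p.d p.s p.y) (C2 cw p)

/-- The semantics of the grouped steps. -/
def sem2 (cw : PV × DC Dc × ℕ → List Bool × List Bool) (p : PV) (st : St Dc) (F : MArr) : MArr :=
  runS (semC cw p) (expS (GP p) st) F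

theorem runS_flatMap {σ : Type} (sem : σ → MArr → MArr) (e : σ → List σ) (l : List σ)
    (F : MArr) : runS (fun st F => runS sem (e st) F) l F = runS sem (l.flatMap e) F := by
  induction l generalizing F with
  | nil => rfl
  | cons a l ih =>
    rw [List.flatMap_cons]
    unfold runS at ih ⊢
    rw [List.foldl_cons, List.foldl_append, ih]

theorem sem2_none (cw : PV × DC Dc × ℕ → List Bool × List Bool) (p : PV) {st : St Dc}
    (h : isH st = none) (F : MArr) :
    sem2 cw p st F = H50.semP cw p (cpar p.d p.s p.y) st F := by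
  unfold sem2
  rw [expS_none h]
  cases st with
  | dn J => rfl
  | up J => rfl
  | dg c =>
    funext u
    show cmZ _ _ (C2 cw p c u) (F u) = cmZ _ _ (H50.Cw cw p c u) (F u)
    unfold C2
    rw [h]
    rfl

theorem testBit_lp (G : Geo) {t : ℕ} (ht : t < G.a) (u i : ℕ) :
    (G.lp u i).testBit t = u.testBit (G.bp t i) := by
  have h : (G.dv u i).testBit t = u.testBit (G.bp t i) := by
    unfold Geo.dv Geo.bp
    rw [Nat.testBit_mod_two_pow, Nat.testBit_div_two_pow, if_pos ht, add_comm]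
    simp [ht]
  unfold Geo.lp
  split_ifs
  · rw [Nat.testBit_two_pow_add_gt ht, h]
  · rw [zero_add, h]

theorem val_bA (d s : ℕ) {t : ℕ} (ht : t < aR d) (J : List ℕ) (u : ℕ) :
    (geo d s).val (lvc (aR d)) (.loc J (.bA t)) u = (dB (J.map ((geo d s).bp t)) u : ℂ) := by
  unfold dB
  rw [Int.cast_list_prod, List.map_map, List.map_map]
  refine congrArg List.prod (List.map_congr_left fun i _ => ?_)
  rw [H900.lvc_eq (c := .bA t) ht.le]
  show H352.gA t _ = _
  unfold H352.gA
  simp only [H352.lo_iff_testBit, Function.comp]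
  rw [testBit_lp (geo d s) ht]
  cases u.testBit ((geo d s).bp t i) <;> simp

theorem bA_lt_old {a t : ℕ} (h : Ly.dg (Dc.bA t) ∈ lprog a) : t < a := by
  rw [← exp_lprog2] at h
  obtain ⟨l, hl, h⟩ := List.mem_flatMap.1 h
  refine bA_lt (a := a) ?_
  rcases l with r | r | c
  · simp [expL] at h
  · simp [expL] at h
  · cases c <;> simp [expL] at h
    rw [h]
    exact hl

theorem sg_small {b : ℕ} {z : ℤ} (h : 2 * |z| < 2 ^ b) : sg b z = z := by
  have h1 := H900.bmod_val_wordZ h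
  rw [H900.val_wordZ] at h1
  have e : (2 : ℤ) ^ b = ((2 ^ b : ℕ) : ℤ) := by push_cast; rfl
  rw [e, Int.emod_bmod] at h1
  exact h1

/-- What is known about the words of the constants. -/
structure CwOk (cw : PV × DC Dc × ℕ → List Bool × List Bool) (Z : PV × DC Dc × ℕ → ℤ × ℤ) :
    Prop where
  eq : ∀ x, cw x = (wordZ (bW x.1.d x.1.s x.1.y) (Z x).1, wordZ (bW x.1.d x.1.s x.1.y) (Z x).2)
  re : ∀ x, |((Z x).1 : ℝ) - 2 ^ sc x.1.d x.1.s x.1.y * (H313.zV x).re| ≤ 1
  im : ∀ x, |((Z x).2 : ℝ) - 2 ^ sc x.1.d x.1.s x.1.y * (H313.zV x).im| ≤ 1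

variable {cw : PV × DC Dc × ℕ → List Bool × List Bool} {Z : PV × DC Dc × ℕ → ℤ × ℤ}

theorem CwOk.len (h : CwOk cw Z) (p : PV) (c : DC Dc) (u : ℕ) :
    (cw (p, c, u)).1.length = (cpar p.d p.s p.y).b ∧
      (cw (p, c, u)).2.length = (cpar p.d p.s p.y).b := by
  rw [h.eq]
  exact ⟨H900.length_wordZ _ _, H900.length_wordZ _ _⟩

/-- The exact constant fits into a word. -/
theorem dB_fit {p : PV} {t : ℕ} {J : List ℕ} (hc : St.dg (.loc J (.bA t)) ∈ fwP p ++ bkP p)
    (u : ℕ) : t < aR p.d ∧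
      2 * |dB (J.map ((GP p).bp t)) u * 2 ^ sc p.d p.s p.y| < 2 ^ bW p.d p.s p.y := by
  have ht : t < aR p.d := by
    rcases List.mem_append.1 hc with h | h
    · exact bA_lt_old (H313.inProg_fwd _ _ _ h)
    · exact bA_lt_old (H313.inProg_bwd _ _ _ h)
  refine ⟨ht, ?_⟩
  have h1 := H328.two_mul_lt p.y (H328.length_lprog _).le hc
    (H328.norm_val_lvc p.d p.s (.loc J (.bA t)) u)
  rw [val_bA p.d p.s ht, Complex.norm_intCast] at h1
  have h2 : (2 : ℝ) * |(dB (J.map ((geo p.d p.s).bp t)) u : ℝ) * 2 ^ sc p.d p.s p.y| <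
      2 ^ bW p.d p.s p.y := by
    rw [abs_mul, abs_of_pos (by positivity : (0 : ℝ) < 2 ^ sc p.d p.s p.y)]
    linarith
  exact_mod_cast h2

/-- The constants are correct up to one unit. -/
theorem C2_close (h : CwOk cw Z) {p : PV} {c : DC Dc} (hc : St.dg c ∈ fwP p ++ bkP p) (u : ℕ) :
    |((sg (bW p.d p.s p.y) (C2 cw p c u).1 : ℤ) : ℝ) -
        2 ^ sc p.d p.s p.y * ((geo p.d p.s).val (lvc (aR p.d)) c u).re| ≤ 1 ∧
      |((sg (bW p.d p.s p.y) (C2 cw p c u).2 : ℤ) : ℝ) -
        2 ^ sc p.d p.s p.y * ((geo p.d p.s).val (lvc (aR p.d)) c u).im| ≤ 1 := by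
  unfold C2
  cases hH : isH (.dg c) with
  | some x =>
    obtain ⟨t, J⟩ := x
    have e := isH_some hH
    rw [St.dg.injEq] at e
    subst e
    obtain ⟨ht, hf⟩ := dB_fit hc u
    simp only
    rw [sg_small hf, sg_small (by simp), val_bA p.d p.s ht]
    have e2 : GP p = geo p.d p.s := rfl
    simp [e2, mul_comm]
  | none =>
    have h1 := H328.two_mul_lt p.y (H328.length_lprog _).le hc (H328.norm_val_lvc p.d p.s c u)
    have h2 : ∀ r : ℝ, |r| ≤ ‖(geo p.d p.s).val (lvc (aR p.d)) c u‖ →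
        2 * (|2 ^ sc p.d p.s p.y * r| + 1) < 2 ^ bW p.d p.s p.y := by
      intro r hr
      rw [abs_mul, abs_of_pos (by positivity : (0 : ℝ) < 2 ^ sc p.d p.s p.y)]
      have := mul_le_mul_of_nonneg_left hr (by positivity : (0 : ℝ) ≤ 2 ^ sc p.d p.s p.y)
      linarith
    have h3 := h.re (p, c, u)
    have h4 := h.im (p, c, u)
    simp only [H50.Cw, h.eq]
    rw [H328.sg_wv_wordZ h3 (h2 _ (Complex.abs_re_le_norm _)),
      H328.sg_wv_wordZ h4 (h2 _ (Complex.abs_im_le_norm _))]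
    exact ⟨h3, h4⟩

/-- **The numerical statement for the grouped schedule.** -/
theorem num2 (h : CwOk cw Z) (p : PV) (hds : p.d + 1 ≤ p.s) :
    Num (cpar p.d p.s p.y) (GP p) (2 ^ (p.s - 1) * NR p.d) (sem2 cw p)
      (H50.prS (cpar p.d p.s p.y)) (fw2 p) (bk2 p) := by
  have h1 := H328.num_geo (d := p.d) (s := p.s) p.y (by omega) (by omega) (lv := lvc (aR p.d))
    (prog := lprog (aR p.d)) (H328.length_lprog _).le (C := C2 cw p)
    (fun c _ u _ => H328.norm_val_lvc p.d p.s c u) (fun c hc u _ => C2_close h hc u)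
    (H328.exMain_geo (by omega) (Or.inr rfl) _ _)
  intro x y hx hy u hu hv j hj
  have h2 := h1 x y hx hy u hu hv j hj
  unfold sem2
  rw [runS_flatMap, runS_flatMap, exp_fw2, exp_bk2]
  exact h2

/-! ### the groups of butterflies modulo `2 ^ b` -/

theorem wrap_modEq (b : ℕ) (z : ℤ) : wrap b z ≡ z [ZMOD 2 ^ b] := by
  unfold wrap
  have e : (2 : ℤ) ^ b = ((2 ^ b : ℕ) : ℤ) := by push_cast; rfl
  rw [e]
  exact Int.bmod_emod

theorem cmZ_exact {b s : ℕ} {k : ℤ} (hk : 2 * |k * 2 ^ s| < 2 ^ b) (x : Cq) (o r : Bool) (j : ℕ) :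
    cmZ b s (k * 2 ^ s, 0) x o r j = k * wrap b (x o r j) := by
  have h0 : wrap b 0 = 0 := by simp [wrap]
  have h1 : wrap b (k * 2 ^ s) = k * 2 ^ s := by
    rw [H50.wrap_eq_sg]
    exact sg_small hk
  have h2 : ∀ z, mulWord b s (k * 2 ^ s) z = k * wrap b z := by
    intro z
    unfold mulWord
    rw [h1, ← mul_assoc, Int.mul_ediv_cancel _ (by positivity), mul_comm]
  have h3 : ∀ z, mulWord b s 0 z = 0 := by
    intro z
    unfold mulWord
    rw [h0, mul_zero, Int.zero_ediv]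
  cases r <;> simp [cmZ, h2, h3]

theorem ups_modEq {m : ℤ} (B : List ℕ) {F F' : MArr} (h : ∀ u o r j, F u o r j ≡ F' u o r j [ZMOD m]) :
    ∀ u o r j, (B.foldr upF F : MArr) u o r j ≡ (B.foldr upF F' : MArr) u o r j [ZMOD m] := by
  induction B with
  | nil => exact h
  | cons b B ih =>
    intro u o r j
    rw [List.foldr_cons, List.foldr_cons]
    unfold upF
    split_ifs
    · exact (ih u o r j).add (ih _ o r j)
    · exact ih u o r j

/-- **A group of butterflies**, modulo `2 ^ b`. -/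
theorem sem2_H (cw : PV × DC Dc × ℕ → List Bool × List Bool) {p : PV} {st : St Dc}
    (h : st ∈ fw2 p ++ bk2 p) {t : ℕ} {J : List ℕ} (hH : isH st = some (t, J)) (F : MArr)
    (u : ℕ) (o r : Bool) (j : ℕ) :
    sem2 cw p st F u o r j ≡ ((J.map ((GP p).bp t)).foldr bfly F : MArr) u o r j
      [ZMOD 2 ^ bW p.d p.s p.y] := by
  obtain ⟨-, hn, -⟩ := isH_ok h hH
  obtain rfl := isH_some hH
  have hB : (J.map ((GP p).bp t)).Nodup := hn.map (H50.bp_inj _ t)
  rw [← tri_eq hB]
  refine ups_modEq _ (fun u o r j => ?_) u o r j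
  show cmZ _ _ (dB (J.map ((GP p).bp t)) u * 2 ^ sc p.d p.s p.y, 0) _ o r j ≡ _ [ZMOD _]
  rw [cmZ_exact (dB_fit (mem_old h) u).2]
  exact (wrap_modEq _ _).mul_left _

end Vale.Agent.P338Z.Nm
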