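import Vale.Agent.P338Z.Nm.Bnd
import Vale.Agent.P338Z.Nm.Frame

/-!
P338 power saving, glue (5): the acts of the grouped schedule multiply, if the acts of the groups of
butterflies are correct on bounded arrays.
-/

namespace Vale.Agent.P338Z.Nm

open Vale.Agent.P338.R3
open Vale.Agent.P338.R3.H282 (Geo St DC Ly dnF upF bfly)
open Vale.Agent.P338.R3.H352 (Dc lprog)
open Vale.Agent.P338.R3.H313 (PV GP KP fwP bkP)
open Vale.Agent.P338.R3.H501.Rad (aR NR)
open Vale.Agent.P338.R3.H968 (CPar Cell DS sg)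
open Vale.Agent.P338.R3.H898 (Act Ex)
open Vale.Agent.P338.R3.H334 (mzSt cmZ prZ mulWord mulPoly wrap Cq)
open Vale.Agent.P338.R3.H257 (MArr runS ldArr atL blocks D0 D1 nP nM)
open Vale.Agent.P338.R3.H121 (geo cpar bW sc wW lgK tot cap)
open Vale.Agent.P338.R3.H50 (pActs prActs loadActs unloadActs prS)
open Vale.Agent.P338.R3.H527 (best)
open Vale.Agent.P338.R3.H772 (lval)

/-! ### bounds for all words -/

/-- All words of the array are at most `2 ^ x`. -/
def BdU (n x : ℕ) (F : MArr) : Prop := ∀ u < n, ∀ o r j, |F u o r j| ≤ 2 ^ x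

theorem bdU_iff {n x : ℕ} {F : MArr} : BdU n x F ↔ ∀ nw, BdA n nw x F :=
  ⟨fun h _ u hu o r j _ => h u hu o r j, fun h u hu o r j => h (j + 1) u hu o r j (by omega)⟩

theorem BdU.mono {n x y : ℕ} {F : MArr} (h : BdU n x F) (hxy : x ≤ y) : BdU n y F :=
  bdU_iff.2 fun nw => (bdU_iff.1 h nw).mono hxy

/-- The words with large numbers vanish. -/
def Zs (k : ℕ) (F : MArr) : Prop := ∀ u o r j, k ≤ j → F u o r j = 0

theorem zs_mzSt {b s k : ℕ} {C : DC Dc → ℕ → ℤ × ℤ} (st : St Dc) {F : MArr} (h : Zs k F) :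
    Zs k (mzSt b s C st F) := by
  cases st with
  | dn J =>
    show Zs k (J.foldr dnF F)
    induction J with
    | nil => exact h
    | cons c J ih =>
      intro u o r j hj
      rw [List.foldr_cons, H282.dnF_def]
      split_ifs
      · exact ih u o r j hj
      · show _ + _ = (0 : ℤ)
        rw [ih u o r j hj, ih _ o r j hj, add_zero]
  | up J =>
    show Zs k (J.foldr upF F)
    induction J with
    | nil => exact h
    | cons c J ih =>
      intro u o r j hj
      rw [List.foldr_cons, H282.upF_def]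
      split_ifs
      · show _ + _ = (0 : ℤ)
        rw [ih u o r j hj, ih _ o r j hj, add_zero]
      · exact ih u o r j hj
  | dg c =>
    intro u o r j hj
    have h0 : ∀ c, mulWord b s c 0 = 0 := fun c => by simp [mulWord, wrap]
    cases r <;> simp [mzSt, cmZ, h u o _ j hj, h0]

theorem zs_runS {sem : St Dc → MArr → MArr} {k : ℕ} (hs : ∀ st F, Zs k F → Zs k (sem st F))
    (l : List (St Dc)) {F : MArr} (h : Zs k F) : Zs k (runS sem l F) := by
  induction l generalizing F with
  | nil => exact h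
  | cons st l ih => exact ih (hs st F h)

theorem zs_ld (P : CPar) (G : Geo) (m x y : ℕ) : Zs P.Y (ldArr P G m x y) := by
  intro u o r j hj
  unfold ldArr
  split_ifs <;> simp [H898.cZero, H968.cLoad, not_lt.2 hj]

theorem mulPoly_zero {b s k : ℕ} {f h : ℕ → ℤ} (hf : ∀ j, k ≤ j → f j = 0)
    (hh : ∀ j, k ≤ j → h j = 0) {j : ℕ} (hj : 2 * k ≤ j) : mulPoly b s f h j = 0 := by
  unfold mulPoly
  rw [Finset.sum_eq_zero, Int.zero_ediv]
  intro i _
  by_cases hi : k ≤ i
  · simp [hf i hi, wrap]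
  · simp [hh (j - i) (by omega), wrap]

theorem bdU_pr {n k b s x g m : ℕ} (hg : 2 * k ≤ 2 ^ g) (hm : g + 2 * x ≤ m + s) {F : MArr}
    (hz : Zs k F) (h : BdU n x F) : BdU n (m + 1) fun u => prZ b s (F u) := by
  intro u hu o r j
  by_cases hj : j < 2 * k
  · exact bdA_pr hg hm (bdU_iff.1 h _) u hu o r j hj
  · have k : ∀ r r', mulPoly b s (F u false r) (F u true r') j = 0 := fun r r' =>
      mulPoly_zero (hz u false r) (hz u true r') (not_lt.1 hj)
    cases o <;> cases r <;> simp [prZ, k]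

theorem ups_congr {n : ℕ} (B : List ℕ) {F F' : MArr} (h : ∀ u < n, F u = F' u) :
    ∀ u < n, (B.foldr upF F : MArr) u = (B.foldr upF F' : MArr) u := by
  induction B with
  | nil => exact h
  | cons b B ih =>
    intro u hu
    rw [List.foldr_cons, List.foldr_cons, H282.upF_def, H282.upF_def, ih u hu,
      ih _ (lt_of_le_of_lt (Nat.sub_le _ _) hu)]

variable {cw : PV × DC Dc × ℕ → List Bool × List Bool} {Z : PV × DC Dc × ℕ → ℤ × ℤ}

theorem length_le_of_lt {J : List ℕ} {d : ℕ} (hn : J.Nodup) (h : ∀ i ∈ J, i < d) :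
    J.length ≤ d := by
  have h1 : J ⊆ List.range d := fun i hi => List.mem_range.2 (h i hi)
  simpa using (List.subperm_of_subset hn h1).length_le

theorem d_le_wW (d s y : ℕ) : d ≤ wW d s y := by
  refine le_trans ?_ (H121.kB_le_wW (d := d) (s := s) y)
  unfold H121.kB
  have : 3 ≤ aR d := by
    unfold aR
    omega
  nlinarith

/-- **A group of butterflies** on a bounded array. -/
theorem sem2_H_eq {p : PV} (hds : p.d ≤ p.s) {st : St Dc} (h : st ∈ fw2 p ++ bk2 p) {t : ℕ}
    {J : List ℕ} (hH : isH st = some (t, J)) {F : MArr}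
    (hF : BdU (2 ^ KP p) (40 * wW p.d p.s p.y) F) :
    ∀ u < 2 ^ KP p, sem2 cw p st F u = ((J.map ((GP p).bp t)).foldr bfly F : MArr) u := by
  obtain ⟨-, hn, hJ⟩ := isH_ok h hH
  obtain rfl := isH_some hH
  have hB : (J.map ((GP p).bp t)).Nodup := hn.map (H50.bp_inj _ t)
  have hK : ∀ b ∈ J.map ((GP p).bp t), b < KP p := by
    intro b hb
    obtain ⟨i, hi, rfl⟩ := List.mem_map.1 hb
    exact H50.bp_lt (GP p) hds (hJ i hi)
  rw [← tri_eq hB]
  refine ups_congr _ fun u hu => ?_
  funext o r j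
  show cmZ _ _ (dB (J.map ((GP p).bp t)) u * 2 ^ sc p.d p.s p.y, 0) _ o r j = _
  rw [cmZ_exact (dB_fit (mem_old h) u).2, H50.wrap_eq_sg, sg_small]
  · rfl
  · have h1 := bdA_dn hK (bdU_iff.1 hF (j + 1)) u hu o r j (by omega)
    have h2 := length_le_of_lt hn hJ
    have h3 := d_le_wW p.d p.s p.y
    have h4 := H121.le_wW (d := p.d) (s := p.s) p.y
    rw [List.length_map] at h1
    calc 2 * _ ≤ 2 * (2 : ℤ) ^ (40 * wW p.d p.s p.y + J.length) :=
          mul_le_mul_of_nonneg_left h1 (by norm_num)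
      _ = 2 ^ (40 * wW p.d p.s p.y + J.length + 1) := by ring
      _ < 2 ^ bW p.d p.s p.y := pow_lt_pow_right₀ (by norm_num) (by unfold bW; omega)

/-! ### the acts -/

/-- A relation that extends the execution of the old acts. -/
structure ExLike (E : CPar → List Act → DS → DS → Prop) : Prop where
  of_ex : ∀ {P l D D'}, Ex P l D D' → E P l D D'
  append : ∀ {P l l' D D' D''}, E P l D D' → E P l' D' D'' → E P (l ++ l') D D''

variable {E : CPar → List Act → DS → DS → Prop}

/-- What is required of the acts `ha t J` of the groups of butterflies (`T`: further cells). -/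
def HadOK (E : CPar → List Act → DS → DS → Prop) (p : PV) (T : List Cell)
    (ha : ℕ → List ℕ → List Act) : Prop :=
  ∀ (t : ℕ) (J : List ℕ), t < aR p.d → J.Nodup → (∀ i ∈ J, i < p.d) → ∀ (D : DS) (F : MArr),
    D.A = [] → D.B = [] → BdU (2 ^ KP p) (40 * wW p.d p.s p.y) F →
    E (cpar p.d p.s p.y) (ha t J) (atT D (2 ^ KP p) F T)
      (atT D (2 ^ KP p) ((J.map ((GP p).bp t)).foldr bfly F) T)

/-- What is required of the acts that append the further cells. -/
def TailOK (E : CPar → List Act → DS → DS → Prop) (p : PV) (T : List Cell) (tl : List Act) :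
    Prop :=
  ∀ (D : DS) (F : MArr), E (cpar p.d p.s p.y) tl (atL D (2 ^ KP p) F) (atT D (2 ^ KP p) F T)

theorem tailOK_nil (hE : ExLike E) (p : PV) : TailOK E p [] [] := fun D F => by
  rw [atT_nil]
  exact hE.of_ex (.nil _)

/-- The acts of a grouped step. -/
def stActs2 (cw : PV × DC Dc × ℕ → List Bool × List Bool) (p : PV) (ha : ℕ → List ℕ → List Act)
    (st : St Dc) : List Act :=
  match isH st with
  | some x => ha x.1 x.2
  | none => (H313.stM (best 0) (KP p) st).flatMap (pActs cw p)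

/-- All acts. -/
def acts2 (cw : PV × DC Dc × ℕ → List Bool × List Bool) (p : PV) (tl : List Act)
    (ha : ℕ → List ℕ → List Act) : List Act :=
  loadActs (GP p) ++ (tl ++ ((fw2 p).flatMap (stActs2 cw p ha) ++ (prActs cw p ++
    ((bk2 p).flatMap (stActs2 cw p ha) ++ unloadActs (GP p)))))

theorem fx_step (hE : ExLike E) (h : CwOk cw Z) {p : PV} (hds : p.d ≤ p.s) {T : List Cell}
    {ha : ℕ → List ℕ → List Act} (hH : HadOK E p T ha) {st : St Dc} (hst : st ∈ fw2 p ++ bk2 p)
    {D : DS} (hA : D.A = []) (hB : D.B = []) {F : MArr}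
    (hF : BdU (2 ^ KP p) (40 * wW p.d p.s p.y) F) :
    E (cpar p.d p.s p.y) (stActs2 cw p ha st) (atT D (2 ^ KP p) F T)
      (atT D (2 ^ KP p) (sem2 cw p st F) T) := by
  unfold stActs2
  cases hs : isH st with
  | some x =>
    obtain ⟨t, J⟩ := x
    obtain ⟨h1, h2, h3⟩ := isH_ok hst hs
    rw [atT_congr (F := sem2 cw p st F) (G := (J.map ((GP p).bp t)).foldr bfly F)
      (fun u hu o r => by rw [sem2_H_eq hds hst hs hF u hu]) D T]
    exact hH t J h1 h2 h3 D F hA hB hF
  | none =>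
    rw [sem2_none cw p hs]
    have hN : H50.StN (KP p) st := by
      rcases List.mem_append.1 (mem_old hst) with h | h
      · exact H50.stN_fwd (GP p) hds _ st h
      · exact H50.stN_bwd (GP p) hds _ st h
    refine hE.of_ex (ex_atT ?_ T)
    cases st with
    | dn J => exact H527.ex_zs_dn KP cw H313.ldv H313.ulv _ D (H527.best_good 0) p hN.1 hN.2 F
    | up J => exact H527.ex_zs_up KP cw H313.ldv H313.ulv _ D (H527.best_good 0) p hN.1 hN.2 F
    | dg c =>
      have h1 := H50.ex_dg cw p (P := cpar p.d p.s p.y) c (fun u _ => h.len p c u) D F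
      rw [H50.stActs, H50.nP_GP] at h1
      rw [H313.stM] at h1 ⊢
      exact h1

theorem fx_steps (hE : ExLike E) (h : CwOk cw Z) {p : PV} (hds : p.d ≤ p.s) {T : List Cell}
    {ha : ℕ → List ℕ → List Act} (hH : HadOK E p T ha) {D : DS} (hA : D.A = []) (hB : D.B = [])
    {l : List (St Dc)} (hl : ∀ st ∈ l, st ∈ fw2 p ++ bk2 p) {x : ℕ} {F : MArr}
    (hx : x + tot (gS2 (GP p)) l ≤ 40 * wW p.d p.s p.y) (hF : BdU (2 ^ KP p) x F) :
    E (cpar p.d p.s p.y) (l.flatMap (stActs2 cw p ha)) (atT D (2 ^ KP p) F T)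
      (atT D (2 ^ KP p) (runS (sem2 cw p) l F) T) ∧
      BdU (2 ^ KP p) (x + tot (gS2 (GP p)) l) (runS (sem2 cw p) l F) := by
  induction l generalizing x F with
  | nil => exact ⟨hE.of_ex (.nil _), hF⟩
  | cons st l ih =>
    rw [H121.tot_cons, ← add_assoc] at hx ⊢
    have hst := hl st List.mem_cons_self
    obtain ⟨h1, h2⟩ := ih (fun st' h' => hl st' (List.mem_cons_of_mem _ h')) hx
      (bdU_iff.2 fun nw => bdA_sem2 h hds hst (bdU_iff.1 hF nw))
    rw [List.flatMap_cons]
    exact ⟨hE.append (fx_step hE h hds hH hst hA hB (hF.mono (by omega))) h1, h2⟩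

theorem noApp_unload (G : Geo) : ∀ a ∈ unloadActs G, NoApp a := by
  intro a ha
  simp only [unloadActs, List.mem_cons, List.mem_flatMap] at ha
  rcases ha with rfl | ⟨u, -, ha⟩
  · simp [NoApp, Act.c]
  · unfold H413.ulA at ha
    split_ifs at ha <;> simp only [List.mem_cons, List.not_mem_nil, or_false, or_self] at ha
    · rcases ha with rfl | rfl <;> simp [NoApp, Act.c]
    · subst ha
      simp [NoApp, Act.c]

/-- **The acts of the grouped schedule multiply.** -/
theorem run2 (hE : ExLike E) (h : CwOk cw Z) (p : PV) (hds : p.d + 1 ≤ p.s) {T : List Cell}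
    {tl : List Act} {ha : ℕ → List ℕ → List Act} (hT : TailOK E p T tl) (hH : HadOK E p T ha) (x y : List Bool)
    (hx : x.length = cap p.d p.s p.y) (hy : y.length = cap p.d p.s p.y) :
    ∃ D2, E (cpar p.d p.s p.y) (acts2 cw p tl ha)
        (D0 (blocks (wW p.d p.s p.y * 2 ^ p.y) (2 ^ (p.s - 1) * NR p.d) x)
          (blocks (wW p.d p.s p.y * 2 ^ p.y) (2 ^ (p.s - 1) * NR p.d) y)) D2 ∧
      D2.out.length = 2 * cap p.d p.s p.y ∧ lval D2.out = lval x * lval y := by
  have hN : (GP p).N = NR p.d := H328.geo_N p.d p.s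
  have hc := H328.cap_eq p.d p.s p.y
  have hw := H121.le_wW (d := p.d) (s := p.s) p.y
  have hyw := H121.y_le_wW (d := p.d) (s := p.s) p.y
  have hs1 : 1 ≤ p.s := by omega
  set P := cpar p.d p.s p.y with hP
  set m := 2 ^ (p.s - 1) * NR p.d with hm
  have hm' : 2 ^ ((GP p).s - 1) * (GP p).N = m := by rw [hN]; rfl
  have hx' : x.length = P.w * P.Y * m := hx.trans hc.symm
  have hy' : y.length = P.w * P.Y * m := hy.trans hc.symm
  have e1 := H50.load_field (P := P) (H50.gok_GP p) hs1 x y (by rw [hm']; exact hx')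
    (by rw [hm']; exact hy')
  rw [hm'] at e1
  set D := D1 (blocks (P.w * P.Y) m x) (blocks (P.w * P.Y) m y) with hD
  set F0 := ldArr P (GP p) m (lval x) (lval y) with hF0
  obtain ⟨g1, g2⟩ := tot_gS2 p
  have b0 : BdU (2 ^ KP p) (17 * wW p.d p.s p.y) F0 :=
    (bdU_iff.2 fun nw => bdA_ld P (GP p) m _ _ _ nw).mono (by
      show wW p.d p.s p.y + sc p.d p.s p.y ≤ _
      unfold sc
      omega)
  obtain ⟨e2, b1⟩ := fx_steps hE h (by omega) hH (D := D) rfl rfl
    (fun st hst => List.mem_append_left _ hst) (by omega) b0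
  have z1 : Zs P.Y (runS (sem2 cw p) (fw2 p) F0) :=
    zs_runS (fun st F hF => zs_runS (fun st F hF => zs_mzSt st hF) _ hF) _ (zs_ld P _ _ _ _)
  have b2 : BdU (2 ^ KP p) (25 * wW p.d p.s p.y + 1) (prS P (runS (sem2 cw p) (fw2 p) F0)) :=
    bdU_pr (g := p.y + 1) (by rw [pow_succ']; rfl) (by
      show _ ≤ _ + sc p.d p.s p.y
      unfold sc
      omega) z1 (b1.mono (y := 20 * wW p.d p.s p.y) (by omega))
  have e3 := ex_atT (H50.ex_pr cw p (P := P) D (runS (sem2 cw p) (fw2 p) F0)) T
  obtain ⟨e4, -⟩ := fx_steps hE h (by omega) hH (D := D) rfl rfl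
    (fun st hst => List.mem_append_right _ hst) (by omega) b2
  obtain ⟨D2, C, e5, hC, hout⟩ := H50.unload_field (P := P) (H50.gok_GP p) D
    (runS (sem2 cw p) (bk2 p) (prS P (runS (sem2 cw p) (fw2 p) F0))) rfl rfl
  have e6 := ex_frame e5 (noApp_unload _) T
  have hlx : lval x < 2 ^ (P.w * P.Y * m) := by
    rw [← hx']
    exact H50.lval_lt x
  have hly : lval y < 2 ^ (P.w * P.Y * m) := by
    rw [← hy']
    exact H50.lval_lt y
  have h2m : 2 * m = nM (GP p) := by
    rw [← hm']
    exact H50.two_m p hs1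
  have key := H50.unload_eq P (H121.cpar_ok _ _ _) (nM (GP p)) m m (lval x) (lval y) (by omega)
    hlx hly (by
      refine H121.unload_ineq (M := nM (GP p)) ?_
      show 2 ^ p.s * (GP p).N ≤ _
      rw [hN]
      unfold H121.kB
      rw [pow_add]
      exact Nat.mul_le_mul_left _ (H121.NR_le_pow p.d)) C
    (2 ^ (P.s - 3)) (by
      have h5 : P.s - 1 = (P.s - 3) + 2 := by
        show sc p.d p.s p.y - 1 = sc p.d p.s p.y - 3 + 2
        unfold sc
        omega
      rw [h5, pow_add]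
      have : (0 : ℤ) < 2 ^ (P.s - 3) := by positivity
      omega) (fun v hv j hj => by
      obtain ⟨u, hu, hval, hidx, hCv⟩ := hC v hv
      have := num2 h p hds (lval x) (lval y) hlx hly u hu hval j hj
      rw [hCv, ← hidx]
      exact this)
  refine ⟨addT T D2, hE.append (hE.of_ex e1) (hE.append (hT D F0) (hE.append e2
    (hE.append (hE.of_ex e3) (hE.append e4 (hE.of_ex e6))))), ?_, ?_⟩
  · show D2.out.length = _
    rw [hout, key.1, ← h2m, ← hc]
    show wW p.d p.s p.y * 2 ^ p.y * (2 * m) = _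
    ring
  · show lval D2.out = _
    rw [hout, key.2]

end Vale.Agent.P338Z.Nm
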