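import Vale.Agent.P338Z.Nm.Run
import Vale.Agent.P338Z.Ps.Defs
import Vale.Agent.P338Z.End.Fin
import Vale.Agent.P338.R3.H101.Fin

/-!
P338 power saving, glue (6): the final statement from a generator of fast lists of passes for the
groups of butterflies.
-/

namespace Vale.Agent.P338Z.Nm

open Vale.Agent.Lib.PolyTime
open Vale.Agent.P338.R2.H898 (MTM Multiplies mulTime)
open Vale.Agent.P338.R3
open Vale.Agent.P338.R3.H282 (Geo St DC Ly)
open Vale.Agent.P338.R3.H352 (Dc)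
open Vale.Agent.P338.R3.H313 (PV GP KP Mc len ev ldv ulv stM)
open Vale.Agent.P338.R3.H313.Ctl (stepActs stepIters nTs nUs insS)
open Vale.Agent.P338.R3.H501.Rad (aR NR)
open Vale.Agent.P338.R3.H968 (CPar Cell DS)
open Vale.Agent.P338.R3.H898 (Act wts)
open Vale.Agent.P338.R3.H121 (bW cpar nz nj nd VP capP)
open Vale.Agent.P338.R3.H50 (pActs prActs loadActs unloadActs)
open Vale.Agent.P338.R3.H527 (best)
open Vale.Agent.P338.R3.H831 (sgB)

/-- The length of the words. -/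
def bP (p : PV) : ℕ := bW p.d p.s p.y

/-- **What is required of the generator**: `tl p` appends the cells `T p`, `fast (p, t, J)` is the
list of passes for the group of butterflies on the bits `t` of the digits `J`. -/
def GENOK : Prop :=
  ∃ (fast : PV × ℕ × List ℕ → List Ps) (tl : PV → List Ps) (T : PV → List Cell) (C : ℝ),
    0 < C ∧ PT ∅ fast ∧ PT ∅ tl ∧ ∀ p : PV, p.d + 1 ≤ p.s → 1 ≤ p.y →
      TailOK Fx p (T p) (acts (bP p) (tl p)) ∧
      HadOK Fx p (T p) (fun t J => acts (bP p) (fast (p, t, J))) ∧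
      (sz (tl p) : ℝ) ≤ C * 2 ^ KP p ∧
      ∀ (t : ℕ) (J : List ℕ), t < aR p.d → J.Nodup → (∀ i ∈ J, i < p.d) →
        (sz (fast (p, t, J)) : ℝ) ≤ C * (2 ^ KP p * (sg2 p.d + J.length * rt2 p.d))

theorem exLike_Fx : ExLike Fx := ⟨Fx.of_ex, Fx.append⟩

/-- Codes of old and of new passes. -/
abbrev Cd : Type := Option (Mc (DC Dc)) × Ps

/-- An old pass. -/
def cL (m : Mc (DC Dc)) : Cd := (some m, pFlp 0)

/-- A new pass. -/
def cR (m : Ps) : Cd := (none, m)

/-- Number of places. -/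
def len2 (x : PV × Cd) : ℕ := x.2.1.elim (plen x.2.2) fun m => len KP (x.1, m)

variable (cw : PV × DC Dc × ℕ → List Bool × List Bool) (fast : PV × ℕ × List ℕ → List Ps)
  (tl : PV → List Ps)

/-- Instructions. -/
def ev2 (x : PV × Cd × ℕ) : List (ℕ × Act) :=
  x.2.1.1.elim (pins (bP x.1) x.2.1.2 x.2.2) fun m => ev KP cw ldv ulv (x.1, m, x.2.2)

/-- The passes of a grouped step. -/
def stC (p : PV) (st : St Dc) : List Cd :=
  match isH st with
  | none => (stM (best 0) (KP p) st).map cL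
  | some x => (fast (p, x.1, x.2)).map cR

/-- All passes. -/
def sched2 (p : PV) : List Cd :=
  [Mc.load, .rew].map cL ++ ((tl p).map cR ++ ((fw2 p).flatMap (stC fast p) ++
    ([Mc.prod, .rew].map cL ++ ((bk2 p).flatMap (stC fast p) ++ [Mc.zb, .unl].map cL))))

theorem acts_cL (p : PV) (l : List (Mc (DC Dc))) :
    (l.map cL).flatMap (stepActs len2 (ev2 cw) p) = l.flatMap (pActs cw p) := by
  rw [List.flatMap_map]
  rfl

theorem acts_cR (p : PV) (l : List Ps) :
    (l.map cR).flatMap (stepActs len2 (ev2 cw) p) = acts (bP p) l := by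
  rw [List.flatMap_map]
  rfl

theorem acts_stC (p : PV) (st : St Dc) :
    (stC fast p st).flatMap (stepActs len2 (ev2 cw) p) =
      stActs2 cw p (fun t J => acts (bP p) (fast (p, t, J))) st := by
  unfold stC stActs2
  cases isH st with
  | none => exact acts_cL cw p _
  | some x => exact acts_cR cw p _

theorem acts_sched2 (p : PV) : (sched2 fast tl p).flatMap (stepActs len2 (ev2 cw) p) =
    acts2 cw p (acts (bP p) (tl p)) fun t J => acts (bP p) (fast (p, t, J)) := by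
  unfold sched2 acts2
  simp only [List.flatMap_append, acts_cL, acts_cR, List.flatMap_assoc, acts_stC, H50.ld_rew,
    H50.zb_unl]
  rfl

/-! ### polynomial time -/

variable {cw fast tl}

theorem pt_bP {α : Type} [Enc α] {p : α → PV} (hp : PT ∅ p) : PT ∅ fun x => bP (p x) :=
  H121.pt_bW (H313.pt_d hp) (H313.pt_s hp) (H313.pt_y hp)

theorem pbd_bP {α : Type} [Enc α] {p : α → PV} (hp : PT ∅ p) : PBd fun x => bP (p x) :=
  H121.pbd_bW (H313.pbd_d hp) (H313.pbd_s hp) (H313.pbd_y hp)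

theorem pt_opt {α β γ : Type} [Enc α] [Enc β] [Enc γ] {o : α → Option β} {f : α → γ}
    {g : α → β → γ} (ho : PT ∅ o) (hf : PT ∅ f) (hg : PT ∅ fun q : α × β => g q.1 q.2) :
    PT ∅ fun a => (o a).elim (f a) (g a) :=
  (PT.optCase ho hf hg).congr fun a => by cases o a <;> rfl

theorem pt_len2 (h : PPT) : PT ∅ len2 := by
  have hp : PT ∅ fun x : PV × Cd => x.1 := PT.id.fst
  have hm : PT ∅ fun x : PV × Cd => x.2.2 := PT.id.snd.snd
  have ho : PT ∅ fun x : PV × Cd => x.2.1 := PT.id.snd.fst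
  have h0 : PT ∅ fun _ : PV × Cd => (0 : ℕ) := PT.const 0
  have h1 : PT ∅ fun x : PV × Cd => plen x.2.2 := (h (pt_bP hp) (pbd_bP hp) hm h0).1
  have h2 : PT ∅ (len (D := DC Dc) KP) :=
    H313.pt_len (H313.pt_KP PT.id) (H313.pbd_KP (A := ∅) PT.id)
  have h3 : PT ∅ fun q : (PV × Cd) × Mc (DC Dc) => (q.1.1, q.2) := PT.id.fst.fst.pair PT.snd'
  have h4 : PT ∅ fun q : (PV × Cd) × Mc (DC Dc) => len KP (q.1.1, q.2) := h2.comp h3
  unfold len2
  exact pt_opt (o := fun x : PV × Cd => x.2.1) (f := fun x : PV × Cd => plen x.2.2)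
    (g := fun x m => len KP (x.1, m)) ho h1 h4

theorem pt_ev2 (h : PPT) (hc : PT ∅ cw) : PT ∅ (ev2 cw) := by
  have hp : PT ∅ fun x : PV × Cd × ℕ => x.1 := PT.id.fst
  have hm : PT ∅ fun x : PV × Cd × ℕ => x.2.1.2 := PT.id.snd.fst.snd
  have ho : PT ∅ fun x : PV × Cd × ℕ => x.2.1.1 := PT.id.snd.fst.fst
  have h0 : PT ∅ fun x : PV × Cd × ℕ => x.2.2 := PT.id.snd.snd
  have h1 : PT ∅ fun x : PV × Cd × ℕ => pins (bP x.1) x.2.1.2 x.2.2 :=
    (h (pt_bP hp) (pbd_bP hp) hm h0).2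
  have h2 : PT ∅ (ev KP cw ldv ulv) :=
    H313.pt_ev (H313.pt_KP PT.id) (H313.pbd_KP (A := ∅) PT.id) hc H313.pt_ldv H313.pt_ulv
  have h3 : PT ∅ fun q : (PV × Cd × ℕ) × Mc (DC Dc) => (q.1.1, q.2, q.1.2.2) :=
    PT.id.fst.fst.pair (PT.snd'.pair PT.id.fst.snd.snd)
  have h4 : PT ∅ fun q : (PV × Cd × ℕ) × Mc (DC Dc) => ev KP cw ldv ulv (q.1.1, q.2, q.1.2.2) :=
    h2.comp h3
  unfold ev2
  exact pt_opt (o := fun x : PV × Cd × ℕ => x.2.1.1)
    (f := fun x : PV × Cd × ℕ => pins (bP x.1) x.2.1.2 x.2.2)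
    (g := fun x m => ev KP cw ldv ulv (x.1, m, x.2.2)) ho h1 h4

theorem pt_mapL {α : Type} [Enc α] {l : α → List (Mc (DC Dc))} (h : PT ∅ l) :
    PT ∅ fun x => (l x).map cL :=
  PT.map (f := fun _ m => cL m) h ((PT.some PT.snd').pair (PT.const (pFlp 0)))

theorem pt_mapR {α : Type} [Enc α] {l : α → List Ps} (h : PT ∅ l) :
    PT ∅ fun x => (l x).map cR :=
  PT.map (f := fun _ m => cR m) h ((PT.const none).pair PT.snd')

theorem pt_stC (hf : PT ∅ fast) : PT ∅ fun q : PV × St Dc => stC fast q.1 q.2 := by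
  have h1 : PT ∅ fun q : PV × St Dc => (stM (best 0) (KP q.1) q.2).map cL :=
    pt_mapL (H313.pt_stM (PT.const (best 0)) (PBd.const _) (H313.pt_KP PT.fst')
      (H313.pbd_KP (A := ∅) PT.fst') PT.snd')
  have h2 : PT ∅ fun q : (PV × St Dc) × ℕ × List ℕ => (fast (q.1.1, q.2.1, q.2.2)).map cR :=
    pt_mapR (hf.comp (PT.id.fst.fst.pair PT.snd'))
  refine (PT.optCase (g := fun q x => (fast (q.1, x.1, x.2)).map cR) (pt_isH PT.snd') h1
    h2).congr fun q => ?_
  unfold stC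
  cases isH q.2 <;> rfl

theorem pt_sched2 (hf : PT ∅ fast) (ht : PT ∅ tl) : PT ∅ (sched2 fast tl) :=
  PT.append (PT.const _) (PT.append (pt_mapR ht) (PT.append
    (PT.flatMap (f := fun p => stC fast p) (pt_fw2 PT.id) (pt_stC hf)) (PT.append (PT.const _)
      (PT.append (PT.flatMap (f := fun p => stC fast p) (pt_bk2 PT.id) (pt_stC hf))
        (PT.const _)))))

/-! ### the counts -/

variable (cw)

/-- A bound for the work of a pass. -/
def wC (p : PV) (c : Cd) : ℕ :=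
  match c.1 with
  | none => 8 * (c.2.2.2.1 + 1)
  | some m => (pActs cw p m).length

theorem wC_ok (h : PCOST) (p : PV) (c : Cd) :
    (stepActs len2 (ev2 cw) p c).length ≤ wC cw p c ∧
      stepIters len2 (ev2 cw) p c ≤ 4 * wC cw p c := by
  obtain ⟨_ | m, c⟩ := c
  · obtain ⟨h1, h2, -⟩ := h (bP p) c
    refine ⟨h1, h2.trans ?_⟩
    show _ ≤ 4 * (8 * (c.2.2.1 + 1))
    omega
  · exact ⟨le_rfl, H898.stepIters_le (len := len KP) (ev := ev KP cw ldv ulv)
      (H898.one_le_len KP p m) (H898.ev_pos KP cw ldv ulv p m)⟩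

/-- The work of a list of passes. -/
def wS (p : PV) (l : List Cd) : ℕ := (l.map (wC cw p)).sum

theorem wS_append (p : PV) (l l' : List Cd) : wS cw p (l ++ l') = wS cw p l + wS cw p l' := by
  simp [wS]

theorem wS_flatMap (p : PV) (l : List (St Dc)) (f : St Dc → List Cd) :
    (wS cw p (l.flatMap f) : ℝ) = (l.map fun st => (wS cw p (f st) : ℝ)).sum := by
  induction l with
  | nil => simp [wS]
  | cons a l ih => rw [List.flatMap_cons, wS_append, Nat.cast_add, ih, List.map_cons, List.sum_cons]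

theorem wS_cL (p : PV) (l : List (Mc (DC Dc))) :
    wS cw p (l.map cL) = (l.flatMap (pActs cw p)).length := by
  rw [wS, List.map_map, List.length_flatMap]
  rfl

theorem wS_cR (p : PV) (l : List Ps) : wS cw p (l.map cR) = 8 * sz l := by
  rw [wS, List.map_map, sz, ← List.sum_map_mul_left]
  rfl

theorem wS_ok (h : PCOST) (p : PV) (l : List Cd) :
    (l.flatMap (stepActs len2 (ev2 cw) p)).length ≤ wS cw p l ∧
      (l.map (stepIters len2 (ev2 cw) p)).sum ≤ 4 * wS cw p l := by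
  rw [List.length_flatMap, wS, ← List.sum_map_mul_left]
  exact ⟨List.sum_le_sum fun c _ => (wC_ok cw h p c).1, List.sum_le_sum fun c _ =>
    (wC_ok cw h p c).2⟩

theorem best_zero : best 0 = (1, [(1, 0, true)]) := by
  have h : H527.okc 0 0 = false := by
    have h2 : ¬ 2 ^ (H527.dec 0).1 ≤ 0 := by
      have := Nat.two_pow_pos (H527.dec 0).1
      omega
    simp [H527.okc, h2]
  show H527.prg 0 0 = _
  rw [H527.prg, h]
  rfl

theorem old_len (p : PV) (st : St Dc) :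
    (((stM (best 0) (KP p) st).flatMap (pActs cw p)).length : ℝ) ≤
      2 ^ KP p * (30 * (1 + nj st)) := by
  have h := H898.wts_step KP ldv ulv p cw (wt := fun _ _ => 1) (P := ⟨0, 0, 0, 0⟩) (w := 1)
    (fun _ _ _ => le_rfl) (H527.best_good 0) st
  rw [← H898.length_eq_wts] at h
  refine h.trans (mul_le_mul_of_nonneg_left ?_ (by positivity))
  have h1 : (nz st : ℝ) ≤ 1 := by cases st <;> simp [nz]
  have h2 : (nd st : ℝ) ≤ 1 := by cases st <;> simp [nd]
  have h3 : (0 : ℝ) ≤ nj st := Nat.cast_nonneg _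
  rw [best_zero]
  norm_num
  linarith

theorem fix_wts {wt : CPar → ℕ → ℕ} {P : CPar} {w : ℕ} (hw : ∀ o, o ≠ 9 → o ≠ 10 → wt P o ≤ w)
    (p : PV) :
    wts wt P ([Mc.load, .rew].flatMap (pActs cw p)) ≤ 2 ^ KP p * (8 * w) ∧
    wts wt P ([Mc.prod, .rew].flatMap (pActs cw p)) ≤ 2 ^ KP p * (wt P 10 + 4 * w) ∧
    wts wt P ([Mc.zb, .unl].flatMap (pActs cw p)) ≤ 2 ^ KP p * (5 * w) := by
  have h3 := H898.wts_load KP cw ldv ulv p hw
  have h4 := H898.wts_rew KP cw ldv ulv p hw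
  have h5 := H898.wts_prod KP cw ldv ulv wt P p
  have h6 := H898.wts_zb KP cw ldv ulv p hw
  have h7 := H898.wts_unl KP cw ldv ulv p hw
  simp only [List.flatMap_cons, List.flatMap_nil, List.append_nil, H898.wts_append, pActs]
  refine ⟨(Nat.add_le_add h3 h4).trans_eq (by ring), (Nat.add_le_add h5 h4).trans_eq (by ring),
    (Nat.add_le_add h6 h7).trans_eq (by ring)⟩

theorem n10_eq (P : CPar) (l : List Act) :
    n10 l = wts (fun _ o => if o = 10 then 1 else 0) P l := by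
  induction l with
  | nil => rfl
  | cons a l ih =>
    rw [H898.wts_cons, ← ih]
    by_cases h : a.1 = 10 <;> simp [n10, h, add_comm]

theorem n10_acts (h : PCOST) (b : ℕ) (l : List Ps) : n10 (acts b l) = 0 :=
  n10_flatMap_zero fun m _ => n10_eq_zero (h b m).2.2

theorem n10_st (h : PCOST) (p : PV) (st : St Dc) :
    n10 (stActs2 cw p (fun t J => acts (bP p) (fast (p, t, J))) st) = 0 := by
  unfold stActs2
  cases isH st with
  | some x => exact n10_acts h _ _
  | none =>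
    have h1 := H898.wts_step KP ldv ulv p cw (wt := fun _ o => if o = 10 then 1 else 0)
      (P := ⟨0, 0, 0, 0⟩) (w := 0) (fun _ _ h => by simp [h]) (H527.best_good 0) st
    rw [← n10_eq] at h1
    have h2 : (n10 ((stM (best 0) (KP p) st).flatMap (pActs cw p)) : ℝ) ≤ 0 :=
      h1.trans_eq (by simp)
    exact Nat.le_zero.1 (by exact_mod_cast h2)

theorem n10_sched (h : PCOST) (p : PV) :
    n10 ((sched2 fast tl p).flatMap (stepActs len2 (ev2 cw) p)) ≤ 2 ^ KP p := by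
  obtain ⟨h1, h2, h3⟩ := fix_wts cw (wt := fun _ o => if o = 10 then 1 else 0)
    (P := ⟨0, 0, 0, 0⟩) (w := 0) (fun _ _ h => by simp [h]) p
  rw [← n10_eq] at h1 h2 h3
  rw [acts_sched2, acts2, ← H50.ld_rew cw, ← H50.zb_unl cw, prActs]
  simp only [n10_append, n10_acts h, n10_flatMap_zero fun st _ => n10_st cw h p st]
  simp at h1 h2 h3 ⊢
  omega

theorem counts2 (h : PCOST) {C : ℝ} (hC : 0 < C)
    (hs : ∀ p : PV, p.d + 1 ≤ p.s → 1 ≤ p.y → (sz (tl p) : ℝ) ≤ C * 2 ^ KP p ∧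
      ∀ (t : ℕ) (J : List ℕ), t < aR p.d → J.Nodup → (∀ i ∈ J, i < p.d) →
        (sz (fast (p, t, J)) : ℝ) ≤ C * (2 ^ KP p * (sg2 p.d + J.length * rt2 p.d))) :
    Counts pass3 (fun p => (sched2 fast tl p).flatMap (stepActs len2 (ev2 cw) p))
      fun p => ((sched2 fast tl p).map (stepIters len2 (ev2 cw) p)).sum := by
  refine ⟨4 * (621 * (8 * C + 30)), by positivity, fun p hds hy => ?_⟩
  obtain ⟨h1, h2⟩ := hs p hds hy
  have hT : (1 : ℝ) ≤ 2 ^ KP p := one_le_pow₀ (by norm_num)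
  have hp := passOK3.1 p.d p.s hds
  have h3 := sched2_le p (v := fun st => (wS cw p (stC fast p st) : ℝ))
    (C := (8 * C + 30) * 2 ^ KP p) (by positivity) (fun st hst t J hH => by
      obtain ⟨a1, a2, a3⟩ := isH_ok hst hH
      have a4 := h2 t J a1 a2 a3
      have a5 : 0 ≤ 2 ^ KP p * (sg2 p.d + J.length * rt2 p.d) := by
        have := one_le_sg2 p.d
        have := rt2_pos p.d
        positivity
      simp only [stC, hH, wS_cR]
      push_cast
      linarith) (fun st _ hH => by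
      have a1 := old_len cw p st
      have a2 := H121.one_le_sgB (p.d + p.s)
      have a3 : (0 : ℝ) ≤ 2 ^ KP p * (1 + nj st) := by positivity
      have a4 := mul_le_mul_of_nonneg_left a2 a3
      have a5 : 0 ≤ C * (2 ^ KP p * (1 + nj st) * sgB (p.d + p.s)) := by positivity
      simp only [stC, hH, wS_cL]
      linarith)
  obtain ⟨f1, f2, f3⟩ := fix_wts cw (wt := fun _ _ => 1) (P := ⟨0, 0, 0, 0⟩) (w := 1)
    (fun _ _ _ => le_rfl) p
  rw [← H898.length_eq_wts] at f1 f2 f3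
  have f1' : (([Mc.load, .rew].flatMap (pActs cw p)).length : ℝ) ≤ 2 ^ KP p * 8 := by
    exact_mod_cast f1
  have f2' : (([Mc.prod, .rew].flatMap (pActs cw p)).length : ℝ) ≤ 2 ^ KP p * 5 := by
    exact_mod_cast f2
  have f3' : (([Mc.zb, .unl].flatMap (pActs cw p)).length : ℝ) ≤ 2 ^ KP p * 5 := by
    exact_mod_cast f3
  obtain ⟨X, hX⟩ : ∃ X, X = 2 ^ KP p * pass3 p.d p.s := ⟨_, rfl⟩
  have h4 : (2 : ℝ) ^ KP p ≤ X := hX ▸ le_mul_of_one_le_right (by linarith) hp
  have h5 : (wS cw p (sched2 fast tl p) : ℝ) ≤ 621 * (8 * C + 30) * X := by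
    have a1 : 620 * ((8 * C + 30) * 2 ^ KP p) * pass3 p.d p.s = 620 * (8 * C + 30) * X := by
      rw [hX]
      ring
    have a2 := mul_le_mul_of_nonneg_left h4 hC.le
    rw [List.map_append, List.sum_append, ← wS_flatMap, ← wS_flatMap, a1] at h3
    simp only [sched2, wS_append, wS_cL, wS_cR]
    push_cast
    linarith
  obtain ⟨g1, g2⟩ := wS_ok cw h p (sched2 fast tl p)
  have g1' : (((sched2 fast tl p).flatMap (stepActs len2 (ev2 cw) p)).length : ℝ) ≤
      wS cw p (sched2 fast tl p) := by exact_mod_cast g1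
  have g2' : ((((sched2 fast tl p).map (stepIters len2 (ev2 cw) p)).sum : ℕ) : ℝ) ≤
      4 * wS cw p (sched2 fast tl p) := by exact_mod_cast g2
  have g3 : (n10 ((sched2 fast tl p).flatMap (stepActs len2 (ev2 cw) p)) : ℝ) ≤ 2 ^ KP p := by
    exact_mod_cast n10_sched cw h p
  have g4 : (0 : ℝ) ≤ wS cw p (sched2 fast tl p) := Nat.cast_nonneg _
  have g5 : 0 ≤ C * 2 ^ KP p := by positivity
  rw [← hX]
  exact ⟨by linarith, by linarith, by linarith⟩

/-- **The final statement** from the core program, the passes and the generator. -/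
theorem top (hC : CORE) (h1 : PCOST) (h2 : PPT) (hG : GENOK) :
    (∃ A : MTM, Multiplies A ∧ ∃ C : ℝ, 0 < C ∧ ∀ n : ℕ, 2 ≤ n →
      (mulTime A n : ℝ) ≤ C * (n * Real.log n ^ (1 - 1 / 2 ^ 89 : ℝ))) ∧
    ¬ ∀ A : MTM, Multiplies A → ∃ c : ℝ, 0 < c ∧ ∃ N : ℕ, 2 ≤ N ∧ ∀ n : ℕ, N ≤ n →
      c * (n * Real.log n) ≤ mulTime A n := by
  obtain ⟨fast, tl, T, C, hC0, pf, pt, hG⟩ := hG
  obtain ⟨cw, Z, c1, c2, c3, c4⟩ := H313.exists_cw
  have ps := pt_sched2 pf pt
  obtain ⟨c, hc⟩ := hC (nT := nTs (sched2 fast tl)) (nU := nUs (sched2 fast tl) len2 (cL .rew))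
    (ins := insS (sched2 fast tl) (ev2 cw) (cL .rew)) (H313.Ctl.pt_nTs ps)
    (H313.Ctl.pt_nUs ps (pt_len2 h2)) (H313.Ctl.pt_insS ps (pt_ev2 h2 c1))
  obtain ⟨e, he⟩ := H235.exists_setupOK
  refine final_of fun A hA => ?_
  obtain ⟨K, hK⟩ := hc hA
  have hcnt := counts2 cw (fast := fast) (tl := tl) h1 hC0 fun p a b => (hG p a b).2.2
  refine ⟨_, bdP_of K c (H101.wtOK A) (H101.setupCost e) passOK3.1 hcnt, ?_⟩
  have key := hK (V := VP) (cap := capP) (big := H898.bigP) (cp := H898.cpP)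
    (fun p _ => H898.cpP_ok p) (D0 := H898.dP) (cS := H898.cS e)
    (he fun p _ x y hx hy => H898.isStart_dP hx hy) (fun p x y => H898.rest_dP p x y)
    (fun p hp x y hx hy => by
      rw [H313.Ctl.acts_sched, acts_sched2]
      obtain ⟨g1, g2, -⟩ := hG (H898.bigP p) hp.1 hp.2
      exact run2 exLike_Fx ⟨c2, c3, c4⟩ (H898.bigP p) hp.1 g1 g2 x y hx hy)
  simp only [H313.Ctl.acts_sched, H313.Ctl.iters_sched] at key
  exact key

end Vale.Agent.P338Z.Nm
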